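import Vale.Agent.Lib.P134A.Defs
import Vale.Agent.Lib.P225R.IdII

/-!
# P134A CaccW: weighted Caccioppoli inequality

Divergence of `ψ² u ∇u` (`int_div`): `∫ ψ² |∇u|² = -∫ ψ² u (u³-u) - 2 ∫ ψ u ∇ψ·∇u`, `|u (u³-u)| ≤ 1`.
-/

namespace Vale.Agent.P134

open Set MeasureTheory Filter Vale.Agent.P222
open scoped Topology ContDiff

variable {m : ℕ} {u : (Fin (m + 1) → ℝ) → ℝ}

private theorem CaccW_dd_cont {f g : (Fin (m + 1) → ℝ) → ℝ} (hf : ContDiff ℝ ∞ f)
    (hg : ContDiff ℝ ∞ g) : Continuous (dd f g) := by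
  unfold dd
  exact continuous_finsetSum _ fun j _ =>
    (contDiff_pder hf j).continuous.mul (contDiff_pder hg j).continuous

private theorem CaccW_pder_supp {ψ : (Fin (m + 1) → ℝ) → ℝ} (hψ : Tst ψ) (j : Fin (m + 1)) :
    HasCompactSupport (pder j ψ) :=
  hψ.c.fderiv_apply ℝ _

private theorem CaccW_dd_supp {ψ : (Fin (m + 1) → ℝ) → ℝ} (hψ : Tst ψ) :
    HasCompactSupport (dd ψ ψ) := by
  have h1 : HasCompactSupport (fderiv ℝ ψ) := hψ.c.fderiv ℝ
  refine h1.mono ?_
  intro x hx
  rw [Function.mem_support] at hx ⊢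
  intro h0
  apply hx
  unfold dd
  refine Finset.sum_eq_zero fun j _ => ?_
  unfold pder
  rw [h0]
  simp

theorem caccW (hu : Sol u) {ψ : (Fin (m + 1) → ℝ) → ℝ} (hψ : Tst ψ) :
    ∫ x, ψ x ^ 2 * dd u u x ≤ 2 * (∫ x, ψ x ^ 2) + 4 * ∫ x, dd ψ ψ x := by
  have hus := hu.smooth
  have hψs := hψ.s
  have hψd : Differentiable ℝ ψ := smooth_differentiable hψs
  have hud : Differentiable ℝ u := smooth_differentiable hus
  set G : Fin (m + 1) → (Fin (m + 1) → ℝ) → ℝ := fun i x => (ψ x * ψ x) * (u x * pder i u x)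
    with hG
  have hGs : ∀ i, ContDiff ℝ ∞ (G i) := fun i =>
    (hψs.mul hψs).mul (hus.mul (contDiff_pder hus i))
  have hψc2 : HasCompactSupport fun x => ψ x * ψ x := hψ.c.mul_left
  have hGc : ∀ i, HasCompactSupport (G i) := fun i => hψc2.mul_right
  have hGi : ∀ i, ∫ x, pder i (G i) x = 0 := fun i => Vale.Agent.P225.int_div (hGs i) (hGc i) i
  have hGint : ∀ i, Integrable (fun x => pder i (G i) x) := fun i =>
    (contDiff_pder (hGs i) i).continuous.integrable_of_hasCompactSupport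
      ((hGc i).fderiv_apply ℝ _)
  have hpd : ∀ i x, pder i (G i) x = 2 * ψ x * u x * (pder i ψ x * pder i u x) +
      ψ x ^ 2 * (pder i u x * pder i u x) + ψ x ^ 2 * u x * pder i (pder i u) x := by
    intro i x
    have hp : Differentiable ℝ (pder i u) := smooth_differentiable (contDiff_pder hus i)
    have e1 : pder i (G i) x = pder i (fun x => ψ x * ψ x) x * (u x * pder i u x) +
        ψ x * ψ x * pder i (fun x => u x * pder i u x) x :=
      Vale.Agent.P225.IdII_mul (f := fun x => ψ x * ψ x) (g := fun x => u x * pder i u x)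
        (hψd.mul hψd) (hud.mul hp) i x
    have e2 : pder i (fun x => ψ x * ψ x) x = pder i ψ x * ψ x + ψ x * pder i ψ x :=
      Vale.Agent.P225.IdII_mul hψd hψd i x
    have e3 : pder i (fun x => u x * pder i u x) x =
        pder i u x * pder i u x + u x * pder i (pder i u) x :=
      Vale.Agent.P225.IdII_mul hud hp i x
    rw [e1, e2, e3]
    ring
  have hsum : ∀ x, ∑ i, pder i (G i) x = 2 * ψ x * u x * dd ψ u x + ψ x ^ 2 * dd u u x +
      ψ x ^ 2 * u x * (u x ^ 3 - u x) := by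
    intro x
    rw [Finset.sum_congr rfl fun i _ => hpd i x, Finset.sum_add_distrib, Finset.sum_add_distrib,
      ← Finset.mul_sum, ← Finset.mul_sum, ← Finset.mul_sum, hu.eq x]
    rfl
  have hD0 : ∫ x, ∑ i, pder i (G i) x = 0 := by
    rw [integral_finsetSum _ fun i _ => hGint i]
    exact Finset.sum_eq_zero fun i _ => hGi i
  have hDint : Integrable (fun x => ∑ i, pder i (G i) x) := integrable_finsetSum _ fun i _ => hGint i
  have i1 : Integrable (fun x => ψ x ^ 2) := by
    have h1 : (fun x => ψ x ^ 2) = fun x => ψ x * ψ x := by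
      funext x; ring
    rw [h1]
    exact (hψs.continuous.mul hψs.continuous).integrable_of_hasCompactSupport hψc2
  have i2 : Integrable (fun x => dd ψ ψ x) :=
    (CaccW_dd_cont hψs hψs).integrable_of_hasCompactSupport (CaccW_dd_supp hψ)
  have i3 : Integrable (fun x => ψ x ^ 2 * dd u u x) := by
    have h1 : (fun x => ψ x ^ 2 * dd u u x) = fun x => (ψ x * ψ x) * dd u u x := by
      funext x; ring
    rw [h1]
    exact ((hψs.continuous.mul hψs.continuous).mul
      (CaccW_dd_cont hus hus)).integrable_of_hasCompactSupport hψc2.mul_right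
  have hpt : ∀ x, ψ x ^ 2 * dd u u x ≤
      (2 * ψ x ^ 2 + 4 * dd ψ ψ x) + 2 * ∑ i, pder i (G i) x := by
    intro x
    rw [hsum]
    have hu1 : u x ^ 2 ≤ 1 := by
      have := hu.bdd x
      rw [← sq_abs]
      nlinarith [abs_nonneg (u x)]
    have h1 : 0 ≤ ψ x ^ 2 * dd u u x + 4 * u x ^ 2 * dd ψ ψ x + 4 * ψ x * u x * dd ψ u x := by
      unfold dd
      rw [Finset.mul_sum, Finset.mul_sum, Finset.mul_sum, ← Finset.sum_add_distrib,
        ← Finset.sum_add_distrib]
      refine Finset.sum_nonneg fun j _ => ?_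
      nlinarith [sq_nonneg (ψ x * pder j u x + 2 * u x * pder j ψ x)]
    have h2 : 0 ≤ dd ψ ψ x := by
      unfold dd
      exact Finset.sum_nonneg fun j _ => mul_self_nonneg _
    have h3 : u x ^ 2 * dd ψ ψ x ≤ dd ψ ψ x := by nlinarith
    have h4 : 0 ≤ ψ x ^ 2 * (1 - u x ^ 2 + u x ^ 4) := by
      refine mul_nonneg (sq_nonneg _) ?_
      nlinarith [sq_nonneg (u x ^ 2)]
    nlinarith
  calc ∫ x, ψ x ^ 2 * dd u u x
      ≤ ∫ x, ((2 * ψ x ^ 2 + 4 * dd ψ ψ x) + 2 * ∑ i, pder i (G i) x) :=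
        integral_mono i3 (((i1.const_mul 2).add (i2.const_mul 4)).add (hDint.const_mul 2)) hpt
    _ = 2 * (∫ x, ψ x ^ 2) + 4 * ∫ x, dd ψ ψ x := by
        have e1 : Integrable (fun x => 2 * ψ x ^ 2 + 4 * dd ψ ψ x) :=
          (i1.const_mul 2).add (i2.const_mul 4)
        rw [integral_add e1 (hDint.const_mul 2),
          integral_add (i1.const_mul 2) (i2.const_mul 4), integral_const_mul, integral_const_mul,
          integral_const_mul, hD0, mul_zero, add_zero]

end Vale.Agent.P134
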