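import Vale.Agent.Lib.P134A.Defs

/-!
# P134A CutA: cutoff functions and the weight

`cutA`: `χ x = Real.smoothTransition (2 - |x|²/R²)`. `wt`: `(1+|x'|²)^(-a/2)` is smooth, its gradient is
`-a (1+|x'|²)^(-a/2-1) x'`.
-/

namespace Vale.Agent.P134

open Set MeasureTheory Filter Vale.Agent.P222
open scoped Topology ContDiff

variable {m : ℕ}

private lemma CutA_hasFDeriv_sq {n : ℕ} (i : Fin n) (x : Fin n → ℝ) :
    HasFDerivAt (fun y : Fin n → ℝ => y i ^ 2)
      ((2 * x i) • (ContinuousLinearMap.proj (R := ℝ) (φ := fun _ : Fin n => ℝ) i)) x := by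
  have h := (hasFDerivAt_apply (𝕜 := ℝ) i x).pow 2
  refine h.congr_fderiv ?_
  simp

private lemma CutA_sqn (x : Fin (m + 1) → ℝ) : HasFDerivAt (sqn (m := m))
    (∑ i, (2 * x i) • (ContinuousLinearMap.proj (R := ℝ) (φ := fun _ : Fin (m + 1) => ℝ) i)) x := by
  unfold sqn
  exact HasFDerivAt.fun_sum fun i _ => CutA_hasFDeriv_sq i x

private lemma CutA_rho (x : Fin (m + 1) → ℝ) : HasFDerivAt (rho (m := m))
    (∑ i : Fin m, (2 * x i.castSucc) •
      (ContinuousLinearMap.proj (R := ℝ) (φ := fun _ : Fin (m + 1) => ℝ) i.castSucc)) x := by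
  unfold rho
  exact HasFDerivAt.fun_sum fun i _ => CutA_hasFDeriv_sq i.castSucc x

private lemma CutA_chain {s : (Fin (m + 1) → ℝ) → ℝ} {s' : (Fin (m + 1) → ℝ) →L[ℝ] ℝ}
    {x : Fin (m + 1) → ℝ} (hs : HasFDerivAt s s' x) {g : ℝ → ℝ} {g' : ℝ}
    (hg : HasDerivAt g g' (s x)) (j : Fin (m + 1)) :
    pder j (fun y => g (s y)) x = g' * s' (Pi.single j 1) := by
  have h := hg.comp_hasFDerivAt x hs
  unfold pder
  have h2 : fderiv ℝ (fun y => g (s y)) x = g' • s' := h.fderiv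
  rw [h2]
  simp

private lemma CutA_sqn_single (x : Fin (m + 1) → ℝ) (j : Fin (m + 1)) :
    (∑ i, (2 * x i) • (ContinuousLinearMap.proj (R := ℝ) (φ := fun _ : Fin (m + 1) => ℝ) i) :
      (Fin (m + 1) → ℝ) →L[ℝ] ℝ) (Pi.single j 1) = 2 * x j := by
  rw [sum_apply, Finset.sum_eq_single j]
  · simp
  · intro i _ hij
    simp [Pi.single_eq_of_ne hij]
  · simp

private lemma CutA_rho_castSucc (x : Fin (m + 1) → ℝ) (j : Fin m) :
    (∑ i : Fin m, (2 * x i.castSucc) •
      (ContinuousLinearMap.proj (R := ℝ) (φ := fun _ : Fin (m + 1) => ℝ) i.castSucc) :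
      (Fin (m + 1) → ℝ) →L[ℝ] ℝ) (Pi.single j.castSucc 1) = 2 * x j.castSucc := by
  rw [sum_apply, Finset.sum_eq_single j]
  · simp
  · intro i _ hij
    have : i.castSucc ≠ j.castSucc := fun h => hij (Fin.castSucc_injective m h)
    simp [Pi.single_eq_of_ne this]
  · simp

private lemma CutA_rho_last (x : Fin (m + 1) → ℝ) :
    (∑ i : Fin m, (2 * x i.castSucc) •
      (ContinuousLinearMap.proj (R := ℝ) (φ := fun _ : Fin (m + 1) => ℝ) i.castSucc) :
      (Fin (m + 1) → ℝ) →L[ℝ] ℝ) (Pi.single (Fin.last m) 1) = 0 := by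
  rw [sum_apply]
  refine Finset.sum_eq_zero fun i _ => ?_
  have : i.castSucc ≠ Fin.last m := (Fin.castSucc_lt_last i).ne
  simp [Pi.single_eq_of_ne this]

private lemma CutA_sqn_nonneg (x : Fin (m + 1) → ℝ) : 0 ≤ sqn x := by
  unfold sqn
  exact Finset.sum_nonneg fun i _ => sq_nonneg _

private lemma CutA_rho_nonneg (x : Fin (m + 1) → ℝ) : 0 ≤ rho x := by
  unfold rho
  exact Finset.sum_nonneg fun i _ => sq_nonneg _

private lemma CutA_sqn_smooth : ContDiff ℝ ∞ (sqn (m := m)) := by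
  unfold sqn
  fun_prop

private lemma CutA_rho_smooth : ContDiff ℝ ∞ (rho (m := m)) := by
  unfold rho
  fun_prop

theorem cutA (m : ℕ) : ∃ C : ℝ, 0 < C ∧ ∀ R : ℝ, 1 ≤ R → ∃ χ : (Fin (m + 1) → ℝ) → ℝ, Tst χ ∧
    (∀ x, 0 ≤ χ x ∧ χ x ≤ 1) ∧ (∀ x, sqn x ≤ R ^ 2 → χ x = 1) ∧
    (∀ x, 2 * R ^ 2 ≤ sqn x → χ x = 0) ∧ (∀ x, dd χ χ x ≤ C / R ^ 2) ∧
    ∀ x, 2 * R ^ 2 < sqn x → dd χ χ x = 0 := by
  have hsm : ContDiff ℝ ∞ Real.smoothTransition := Real.smoothTransition.contDiff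
  have hdc : Continuous (deriv Real.smoothTransition) := hsm.continuous_deriv (by simp)
  obtain ⟨C0, hC0⟩ := isCompact_Icc.exists_bound_of_continuousOn
    (s := Set.Icc (0 : ℝ) 2) hdc.continuousOn
  have hneg : ∀ y : ℝ, y < 0 → deriv Real.smoothTransition y = 0 := by
    intro y hy
    have h1 : Real.smoothTransition =ᶠ[𝓝 y] fun _ => (0 : ℝ) := by
      filter_upwards [Iio_mem_nhds hy] with z hz
      exact Real.smoothTransition.zero_of_nonpos (le_of_lt hz)
    rw [h1.deriv_eq]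
    simp
  refine ⟨8 * C0 ^ 2 + 1, by positivity, fun R hR => ?_⟩
  have hR0 : 0 < R := by linarith
  have hR2 : 0 < R ^ 2 := by positivity
  set χ : (Fin (m + 1) → ℝ) → ℝ := fun x => Real.smoothTransition (2 - sqn x / R ^ 2) with hχ
  have hdd : ∀ x : Fin (m + 1) → ℝ, dd χ χ x =
      (deriv Real.smoothTransition (2 - sqn x / R ^ 2)) ^ 2 * (4 * sqn x / R ^ 4) := by
    intro x
    have h1 : HasFDerivAt (fun y : Fin (m + 1) → ℝ => 2 - sqn y / R ^ 2)
        (-((R ^ 2)⁻¹ • (∑ i, (2 * x i) •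
          (ContinuousLinearMap.proj (R := ℝ) (φ := fun _ : Fin (m + 1) => ℝ) i)))) x := by
      have h2 := ((CutA_sqn x).const_mul (R ^ 2)⁻¹).const_sub 2
      refine h2.congr_of_eventuallyEq (Eventually.of_forall fun y => ?_)
      simp only
      rw [div_eq_inv_mul]
    have h3 : ∀ j, pder j χ x = deriv Real.smoothTransition (2 - sqn x / R ^ 2) *
        (-((R ^ 2)⁻¹ * (2 * x j))) := by
      intro j
      have h4 : HasDerivAt Real.smoothTransition
          (deriv Real.smoothTransition (2 - sqn x / R ^ 2)) (2 - sqn x / R ^ 2) :=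
        ((hsm.differentiable (by simp)) _).hasDerivAt
      rw [hχ, CutA_chain h1 h4 j]
      congr 1
      rw [neg_apply, smul_apply, CutA_sqn_single, smul_eq_mul]
    unfold dd
    have h5 : ∀ j, pder j χ x * pder j χ x =
        (deriv Real.smoothTransition (2 - sqn x / R ^ 2)) ^ 2 * (4 / R ^ 4) * (x j ^ 2) := by
      intro j
      rw [h3 j]
      field_simp
      ring
    rw [Finset.sum_congr rfl fun j _ => h5 j, ← Finset.mul_sum]
    unfold sqn
    ring
  refine ⟨χ, ⟨?_, ?_⟩, fun x => ⟨Real.smoothTransition.nonneg _, Real.smoothTransition.le_one _⟩,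
    ?_, ?_, ?_, ?_⟩
  · exact hsm.comp (contDiff_const.sub (CutA_sqn_smooth.div_const _))
  · refine HasCompactSupport.intro (isCompact_closedBall (0 : Fin (m + 1) → ℝ) (2 * R))
      fun x hx => ?_
    rw [mem_closedBall_zero_iff, pi_norm_le_iff_of_nonneg (by positivity), not_forall] at hx
    obtain ⟨i, hi⟩ := hx
    push Not at hi
    rw [Real.norm_eq_abs] at hi
    have h1 : x i ^ 2 ≤ sqn x := by
      unfold sqn
      exact Finset.single_le_sum (f := fun i => x i ^ 2) (fun j _ => sq_nonneg _)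
        (Finset.mem_univ i)
    have h2 : (2 * R) ^ 2 ≤ x i ^ 2 := by
      rw [← sq_abs (x i)]
      exact pow_le_pow_left₀ (by positivity) hi.le 2
    refine Real.smoothTransition.zero_of_nonpos ?_
    rw [sub_nonpos, le_div_iff₀ hR2]
    nlinarith
  · intro x hx
    refine Real.smoothTransition.one_of_one_le ?_
    have : sqn x / R ^ 2 ≤ 1 := (div_le_one hR2).2 hx
    linarith
  · intro x hx
    refine Real.smoothTransition.zero_of_nonpos ?_
    rw [sub_nonpos, le_div_iff₀ hR2]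
    exact hx
  · intro x
    rw [hdd]
    have hs0 := CutA_sqn_nonneg x
    by_cases hx : sqn x ≤ 2 * R ^ 2
    · have h1 : sqn x / R ^ 2 ≤ 2 := by
        rw [div_le_iff₀ hR2]
        exact hx
      have h2 : 0 ≤ sqn x / R ^ 2 := by positivity
      have h3 := hC0 (2 - sqn x / R ^ 2) ⟨by linarith, by linarith⟩
      rw [Real.norm_eq_abs] at h3
      have h4 : (deriv Real.smoothTransition (2 - sqn x / R ^ 2)) ^ 2 ≤ C0 ^ 2 := by
        rw [← sq_abs]
        exact pow_le_pow_left₀ (abs_nonneg _) h3 2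
      have h5 : 4 * sqn x / R ^ 4 ≤ 8 / R ^ 2 := by
        rw [div_le_div_iff₀ (by positivity) (by positivity)]
        nlinarith
      calc (deriv Real.smoothTransition (2 - sqn x / R ^ 2)) ^ 2 * (4 * sqn x / R ^ 4)
          ≤ C0 ^ 2 * (8 / R ^ 2) := mul_le_mul h4 h5 (by positivity) (by positivity)
        _ = 8 * C0 ^ 2 / R ^ 2 := by ring
        _ ≤ (8 * C0 ^ 2 + 1) / R ^ 2 := by gcongr; linarith
    · push Not at hx
      rw [hneg]
      · rw [zero_pow (by norm_num), zero_mul]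
        positivity
      · rw [sub_neg, lt_div_iff₀ hR2]
        exact hx
  · intro x hx
    rw [hdd, hneg]
    · rw [zero_pow (by norm_num), zero_mul]
    · rw [sub_neg, lt_div_iff₀ hR2]
      exact hx

theorem wt_smooth (a : ℝ) : ContDiff ℝ ∞ fun x : Fin (m + 1) → ℝ => (1 + rho x) ^ (-a / 2) := by
  refine ContDiff.rpow_const_of_ne (contDiff_const.add CutA_rho_smooth) fun x => ?_
  have := CutA_rho_nonneg x
  positivity

theorem wt_grad (a : ℝ) (x : Fin (m + 1) → ℝ) :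
    dd (fun x : Fin (m + 1) → ℝ => (1 + rho x) ^ (-a / 2)) (fun x => (1 + rho x) ^ (-a / 2)) x =
      a ^ 2 * rho x * (1 + rho x) ^ (-a - 2) := by
  have h0 := CutA_rho_nonneg x
  have hp : 0 < 1 + rho x := by linarith
  have hg : HasDerivAt (fun s : ℝ => s ^ (-a / 2)) ((-a / 2) * (1 + rho x) ^ (-a / 2 - 1))
      (1 + rho x) := Real.hasDerivAt_rpow_const (Or.inl hp.ne')
  have hs := (CutA_rho x).const_add 1
  have h1 : ∀ j, pder j (fun x : Fin (m + 1) → ℝ => (1 + rho x) ^ (-a / 2)) x =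
      ((-a / 2) * (1 + rho x) ^ (-a / 2 - 1)) *
      (∑ i : Fin m, (2 * x i.castSucc) •
      (ContinuousLinearMap.proj (R := ℝ) (φ := fun _ : Fin (m + 1) => ℝ) i.castSucc) :
      (Fin (m + 1) → ℝ) →L[ℝ] ℝ) (Pi.single j 1) := by
    intro j
    exact CutA_chain hs hg j
  unfold dd
  rw [Fin.sum_univ_castSucc]
  simp_rw [h1, CutA_rho_castSucc, CutA_rho_last]
  have h2 : (1 + rho x) ^ (-a / 2 - 1) * (1 + rho x) ^ (-a / 2 - 1) =
      (1 + rho x) ^ (-a - 2) := by
    rw [← Real.rpow_add hp]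
    congr 1
    ring
  rw [← h2]
  have h3 : ∀ i : Fin m, -a / 2 * (1 + rho x) ^ (-a / 2 - 1) * (2 * x i.castSucc) *
      (-a / 2 * (1 + rho x) ^ (-a / 2 - 1) * (2 * x i.castSucc)) =
      a ^ 2 * ((1 + rho x) ^ (-a / 2 - 1) * (1 + rho x) ^ (-a / 2 - 1)) * x i.castSucc ^ 2 := by
    intro i
    ring
  rw [Finset.sum_congr rfl fun i _ => h3 i, ← Finset.mul_sum]
  have h4 : ∑ i : Fin m, x i.castSucc ^ 2 = rho x := rfl
  rw [h4]
  ring

/-- gradient of a product -/
theorem dd_mul_le {f χ : (Fin (m + 1) → ℝ) → ℝ} (hf : ContDiff ℝ ∞ f) (hχ : ContDiff ℝ ∞ χ) {δ : ℝ}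
    (hδ : 0 < δ) (x : Fin (m + 1) → ℝ) :
    dd (fun x => f x * χ x) (fun x => f x * χ x) x ≤
      (1 + δ) * (χ x ^ 2 * dd f f x) + (1 + 1 / δ) * (f x ^ 2 * dd χ χ x) := by
  unfold dd
  rw [Finset.mul_sum, Finset.mul_sum, Finset.mul_sum, Finset.mul_sum, ← Finset.sum_add_distrib]
  refine Finset.sum_le_sum fun j _ => ?_
  rw [congrFun (pder_mul hf hχ j) x]
  set A := f x * pder j χ x with hA
  set B := pder j f x * χ x with hB
  have h1 : 2 * (A * B) ≤ δ * B ^ 2 + 1 / δ * A ^ 2 := by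
    have h2 : 0 ≤ 1 / δ * (δ * B - A) ^ 2 := by positivity
    have h3 : 1 / δ * (δ * B - A) ^ 2 = δ * B ^ 2 - 2 * (A * B) + 1 / δ * A ^ 2 := by
      field_simp
      ring
    linarith
  have h4 : (1 + δ) * (χ x ^ 2 * (pder j f x * pder j f x)) +
      (1 + 1 / δ) * (f x ^ 2 * (pder j χ x * pder j χ x)) =
      (1 + δ) * B ^ 2 + (1 + 1 / δ) * A ^ 2 := by
    rw [hA, hB]
    ring
  rw [h4]
  nlinarith

end Vale.Agent.P134
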