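import Vale.Agent.Lib.P222.Sing

/-!
# P134A: axially symmetric monotone solutions of the Allen-Cahn equation, definitions

`x = (x', t)`, `x' ∈ ℝ^m`, `t` the last coordinate; `rho x = |x'|²`.
-/

namespace Vale.Agent.P134

open Set MeasureTheory Filter Vale.Agent.P222
open scoped Topology ContDiff

noncomputable section

variable {m : ℕ}

/-- `|x'|²` -/
def rho (x : Fin (m + 1) → ℝ) : ℝ := ∑ i : Fin m, x i.castSucc ^ 2

/-- `|x|²` -/
def sqn (x : Fin (m + 1) → ℝ) : ℝ := ∑ i, x i ^ 2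

/-- `∇f · ∇g` -/
def dd (f g : (Fin (m + 1) → ℝ) → ℝ) (x : Fin (m + 1) → ℝ) : ℝ := ∑ j, pder j f x * pder j g x

/-- `|∇'u|²` -/
def gp (u : (Fin (m + 1) → ℝ) → ℝ) (x : Fin (m + 1) → ℝ) : ℝ := ∑ i : Fin m, pder i.castSucc u x ^ 2

/-- solutions of the Allen-Cahn equation, bounded, increasing in the last variable, axially symmetric -/
structure Sol (u : (Fin (m + 1) → ℝ) → ℝ) : Prop where
  smooth : ContDiff ℝ ∞ u
  eq : ∀ x, ∑ i, pder i (pder i u) x = u x ^ 3 - u x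
  bdd : ∀ x, |u x| ≤ 1
  mono : ∀ x, 0 < pder (Fin.last m) u x
  axial : ∀ x y, rho x = rho y → x (Fin.last m) = y (Fin.last m) → u x = u y

/-- test functions -/
structure Tst (ζ : (Fin (m + 1) → ℝ) → ℝ) : Prop where
  s : ContDiff ℝ ∞ ζ
  c : HasCompactSupport ζ

end

end Vale.Agent.P134
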