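import Vale.Agent.Lib.P134A.Defs

/-!
# P134A VolW: integral of the weight

The set lies in the cube `|xᵢ| ≤ 3 R`, and `(1 + |x'|²)^(-a) ≤ ∏_{i<m} (1 + xᵢ²)^(-a/m) ≤ ∏ |xᵢ|^(-2a/m)`, `2a/m < 1`;
`MeasureTheory.integral_fintype_prod_eq_prod` (or `volume_pi` with `lintegral`) and `∫₀^{3R} t^(-2a/m) dt`.
-/

namespace Vale.Agent.P134

open Set MeasureTheory Filter Vale.Agent.P222
open scoped Topology ContDiff

private theorem volW_one {b : ℝ} (hb0 : 0 < b) (hb1 : b < 1) {R : ℝ} (hR : 1 ≤ R) :
    ∫ t in Icc (-(3 * R)) (3 * R), (1 + t ^ 2) ^ (-(b / 2)) ≤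
      2 * (3 ^ (1 - b) / (1 - b)) * R ^ (1 - b) := by
  have hR0 : 0 < 3 * R := by linarith
  have hc : Continuous fun t : ℝ => (1 + t ^ 2) ^ (-(b / 2)) := by
    refine Continuous.rpow_const (by fun_prop) fun t => Or.inl ?_
    positivity
  rw [integral_Icc_eq_integral_Ioc, ← intervalIntegral.integral_of_le (by linarith)]
  have h1 : ∫ t in (0 : ℝ)..(3 * R), (1 + t ^ 2) ^ (-(b / 2)) ≤
      3 ^ (1 - b) / (1 - b) * R ^ (1 - b) := by
    have h2 : ∫ t in (0 : ℝ)..(3 * R), (1 + t ^ 2) ^ (-(b / 2)) ≤
        ∫ t in (0 : ℝ)..(3 * R), t ^ (-b) := by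
      refine intervalIntegral.integral_mono_on_of_le_Ioo hR0.le (hc.intervalIntegrable _ _)
        (intervalIntegral.intervalIntegrable_rpow' (by linarith)) fun t ht => ?_
      have ht0 : 0 < t := ht.1
      have h3 : t ^ (-b) = (t ^ 2) ^ (-(b / 2)) := by
        rw [← Real.rpow_natCast t 2, ← Real.rpow_mul ht0.le]
        congr 1
        push_cast
        ring
      rw [h3]
      exact Real.rpow_le_rpow_of_nonpos (by positivity) (by linarith) (by linarith)
    refine h2.trans ?_
    rw [integral_rpow (Or.inl (by linarith))]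
    rw [Real.zero_rpow (by linarith), sub_zero, show -b + 1 = 1 - b by ring,
      Real.mul_rpow (by norm_num) (by linarith)]
    exact le_of_eq (by ring)
  have h4 : ∫ t in (-(3 * R))..(0 : ℝ), (1 + t ^ 2) ^ (-(b / 2)) =
      ∫ t in (0 : ℝ)..(3 * R), (1 + t ^ 2) ^ (-(b / 2)) := by
    have h5 := intervalIntegral.integral_comp_neg (a := 0) (b := 3 * R)
      (f := fun t : ℝ => (1 + t ^ 2) ^ (-(b / 2)))
    rw [neg_zero] at h5
    rw [← h5]
    refine intervalIntegral.integral_congr fun t _ => ?_
    simp only [neg_sq]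
  rw [← intervalIntegral.integral_add_adjacent_intervals (hc.intervalIntegrable _ 0)
    (hc.intervalIntegrable 0 _), h4]
  linarith

theorem volW (m : ℕ) (hm : 1 ≤ m) {a : ℝ} (ha : 0 < a) (ham : 2 * a < m) :
    ∃ C : ℝ, 0 < C ∧ ∀ R : ℝ, 1 ≤ R →
      ∫ x in {x : Fin (m + 1) → ℝ | sqn x ≤ 8 * R ^ 2}, (1 + rho x) ^ (-a) ≤
        C * R ^ ((m : ℝ) + 1 - 2 * a) := by
  have hm0 : (0 : ℝ) < m := by exact_mod_cast hm
  set b : ℝ := 2 * a / m with hb
  have hb0 : 0 < b := by positivity
  have hb1 : b < 1 := (div_lt_one hm0).2 ham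
  have hbm : b * m = 2 * a := by
    rw [hb]
    field_simp
  have hC1 : 0 < 2 * ((3 : ℝ) ^ (1 - b) / (1 - b)) := by
    have : 0 < 1 - b := by linarith
    positivity
  set C1 : ℝ := 2 * ((3 : ℝ) ^ (1 - b) / (1 - b)) with hC1d
  refine ⟨C1 ^ m * 6, by positivity, fun R hR => ?_⟩
  have hR0 : 0 < R := by linarith
  set φ : ℝ → ℝ := fun t => (1 + t ^ 2) ^ (-(b / 2)) with hφ
  have hφc : Continuous φ := by
    refine Continuous.rpow_const (by fun_prop) fun t => Or.inl ?_
    positivity
  have hφ0 : ∀ t, 0 ≤ φ t := fun t => by positivity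
  set I : Set ℝ := Icc (-(3 * R)) (3 * R) with hI
  let g : Fin (m + 1) → ℝ → ℝ := fun i => if i = Fin.last m then fun _ => 1 else φ
  have hgc : ∀ i, Continuous (g i) := by
    intro i
    by_cases hi : i = Fin.last m
    · simp only [g, hi, if_true]
      exact continuous_const
    · simp only [g, hi, if_false]
      exact hφc
  have hg0 : ∀ i t, 0 ≤ g i t := by
    intro i t
    by_cases hi : i = Fin.last m
    · simp only [g, hi, if_true]
      exact zero_le_one
    · simp only [g, hi, if_false]
      exact hφ0 t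
  have hint : ∀ i, Integrable (I.indicator (g i)) := by
    intro i
    rw [integrable_indicator_iff measurableSet_Icc]
    exact (hgc i).continuousOn.integrableOn_Icc
  have hS : MeasurableSet {x : Fin (m + 1) → ℝ | sqn x ≤ 8 * R ^ 2} := by
    refine measurableSet_le ?_ measurable_const
    unfold sqn
    fun_prop
  rw [← integral_indicator hS]
  have hle : ∫ x, ({x : Fin (m + 1) → ℝ | sqn x ≤ 8 * R ^ 2}).indicator
      (fun x => (1 + rho x) ^ (-a)) x ≤ ∫ x : Fin (m + 1) → ℝ, ∏ i, I.indicator (g i) (x i) := by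
    refine integral_mono_of_nonneg (Eventually.of_forall fun x => ?_)
      (Integrable.fintype_prod hint) (Eventually.of_forall fun x => ?_)
    · refine indicator_nonneg (fun x _ => ?_) x
      have : 0 ≤ rho x := Finset.sum_nonneg fun i _ => sq_nonneg _
      positivity
    · by_cases hx : x ∈ {x : Fin (m + 1) → ℝ | sqn x ≤ 8 * R ^ 2}
      · simp only [indicator_of_mem hx]
        have hxI : ∀ i, x i ∈ I := by
          intro i
          have h1 : x i ^ 2 ≤ 8 * R ^ 2 :=
            (Finset.single_le_sum (f := fun j => x j ^ 2) (fun j _ => sq_nonneg _)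
              (Finset.mem_univ i)).trans hx
          have h2 : |x i| ≤ 3 * R := by
            refine abs_le_of_sq_le_sq ?_ (by linarith)
            nlinarith
          exact abs_le.1 h2
        have e : ∏ i, I.indicator (g i) (x i) = ∏ i : Fin m, φ (x i.castSucc) := by
          rw [Fin.prod_univ_castSucc]
          rw [indicator_of_mem (hxI _)]
          have e1 : g (Fin.last m) (x (Fin.last m)) = 1 := by simp [g]
          rw [e1, mul_one]
          refine Finset.prod_congr rfl fun i _ => ?_
          rw [indicator_of_mem (hxI _)]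
          have e2 : i.castSucc ≠ Fin.last m := (Fin.castSucc_lt_last i).ne
          simp only [g, e2, if_false]
        rw [e]
        have hrho : 0 ≤ rho x := Finset.sum_nonneg fun i _ => sq_nonneg _
        have e3 : (1 + rho x) ^ (-a) = ∏ _i : Fin m, (1 + rho x) ^ (-(b / 2)) := by
          rw [Finset.prod_const, Finset.card_univ, Fintype.card_fin, ← Real.rpow_natCast,
            ← Real.rpow_mul (by linarith)]
          congr 1
          linarith
        rw [e3]
        refine Finset.prod_le_prod (fun i _ => by positivity) fun i _ => ?_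
        have h3 : x i.castSucc ^ 2 ≤ rho x :=
          Finset.single_le_sum (f := fun j : Fin m => x j.castSucc ^ 2) (fun j _ => sq_nonneg _)
            (Finset.mem_univ i)
        exact Real.rpow_le_rpow_of_nonpos (by positivity) (by linarith) (by linarith)
      · simp only [indicator_of_notMem hx]
        exact Finset.prod_nonneg fun i _ => indicator_nonneg (fun t _ => hg0 i t) _
  refine hle.trans ?_
  rw [integral_fintype_prod_volume_eq_prod, Fin.prod_univ_castSucc]
  have e4 : ∫ t, I.indicator (g (Fin.last m)) t = 6 * R := by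
    have : g (Fin.last m) = fun _ => 1 := by simp [g]
    rw [this, integral_indicator measurableSet_Icc, setIntegral_const, Real.volume_real_Icc,
      smul_eq_mul, mul_one, max_eq_left (by linarith)]
    ring
  have e5 : ∏ i : Fin m, ∫ t, I.indicator (g i.castSucc) t = (∫ t in I, φ t) ^ m := by
    have e6 : ∀ i : Fin m, ∫ t, I.indicator (g i.castSucc) t = ∫ t in I, φ t := by
      intro i
      have e2 : i.castSucc ≠ Fin.last m := (Fin.castSucc_lt_last i).ne
      have : g i.castSucc = φ := by simp only [g, e2, if_false]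
      rw [this, integral_indicator measurableSet_Icc]
    rw [Finset.prod_congr rfl fun i _ => e6 i, Finset.prod_const, Finset.card_univ,
      Fintype.card_fin]
  rw [e4, e5]
  have h6 : ∫ t in I, φ t ≤ C1 * R ^ (1 - b) := volW_one hb0 hb1 hR
  have h7 : 0 ≤ ∫ t in I, φ t := integral_nonneg fun t => hφ0 t
  calc (∫ t in I, φ t) ^ m * (6 * R) ≤ (C1 * R ^ (1 - b)) ^ m * (6 * R) :=
        mul_le_mul_of_nonneg_right (pow_le_pow_left₀ h7 h6 m) (by linarith)
    _ = C1 ^ m * 6 * R ^ ((m : ℝ) + 1 - 2 * a) := by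
        have e7 : (m : ℝ) + 1 - 2 * a = (1 - b) * m + 1 := by linarith
        rw [e7, Real.rpow_add hR0, Real.rpow_one, Real.rpow_mul hR0.le, Real.rpow_natCast,
          mul_pow]
        ring

end Vale.Agent.P134
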