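import Vale.Agent.Lib.P134A.Key
import Vale.Agent.Lib.P134A.CaccW
import Vale.Agent.Lib.P134A.CutA
import Vale.Agent.Lib.P134A.VolW

/-!
# P134A Est: the estimate

`est1`: `caccW` with `ψ = (1+ρ)^(-a/2) χ_{2R}` (here `ρ = |x'|²`), `dd_mul_le` with `δ = 1`, `wt_grad`, `volW`
(`ρ (1+ρ)^(-a-2) ≤ (1+ρ)^(-a)`). `est2`: `key` with `ζ = (1+ρ)^(-a/2) χ_R`, `dd_mul_le` with `(1+δ) a² < m-1`:
`(m-1 - (1+δ)a²) ∫ χ² (1+ρ)^(-a-1) |∇'u|² ≤ (1+1/δ) (C/R²) ∫_{|x|² ≤ 2R²} (1+ρ)^(-a) |∇'u|²`, then `est1`.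
-/

namespace Vale.Agent.P134

open Set MeasureTheory Filter Vale.Agent.P222
open scoped Topology ContDiff

variable {m : ℕ} {u : (Fin (m + 1) → ℝ) → ℝ}

theorem gp_le_dd (u : (Fin (m + 1) → ℝ) → ℝ) (x : Fin (m + 1) → ℝ) : gp u x ≤ dd u u x := by
  unfold gp dd
  rw [Fin.sum_univ_castSucc]
  have h1 : ∀ i : Fin m, pder i.castSucc u x ^ 2 = pder i.castSucc u x * pder i.castSucc u x :=
    fun i => by ring
  simp_rw [h1]
  nlinarith [mul_self_nonneg (pder (Fin.last m) u x)]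

private lemma Est_rho (x : Fin (m + 1) → ℝ) : 0 ≤ rho x :=
  Finset.sum_nonneg fun _ _ => sq_nonneg _

private lemma Est_rho_cont : Continuous (rho : (Fin (m + 1) → ℝ) → ℝ) := by
  unfold rho
  fun_prop

private lemma Est_sqn_cont : Continuous (sqn : (Fin (m + 1) → ℝ) → ℝ) := by
  unfold sqn
  fun_prop

private lemma Est_wc (b : ℝ) : Continuous fun x : Fin (m + 1) → ℝ => (1 + rho x) ^ b := by
  refine (continuous_const.add Est_rho_cont).rpow_const fun x => Or.inl ?_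
  have h := Est_rho x
  have h1 : (0 : ℝ) < 1 + rho x := by linarith
  exact h1.ne'

private lemma Est_wpos (b : ℝ) (x : Fin (m + 1) → ℝ) : 0 < (1 + rho x) ^ b :=
  Real.rpow_pos_of_pos (by have := Est_rho x; positivity) _

private lemma Est_gp (u : (Fin (m + 1) → ℝ) → ℝ) (x : Fin (m + 1) → ℝ) : 0 ≤ gp u x :=
  Finset.sum_nonneg fun _ _ => sq_nonneg _

private lemma Est_dd (u : (Fin (m + 1) → ℝ) → ℝ) (x : Fin (m + 1) → ℝ) : 0 ≤ dd u u x :=
  Finset.sum_nonneg fun _ _ => mul_self_nonneg _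

private lemma Est_gp_cont (hu : ContDiff ℝ ∞ u) : Continuous (gp u) := by
  unfold gp
  exact continuous_finsetSum _ fun i _ => (contDiff_pder hu _).continuous.pow 2

private lemma Est_dd_cont (hu : ContDiff ℝ ∞ u) : Continuous (dd u u) := by
  unfold dd
  exact continuous_finsetSum _ fun i _ =>
    (contDiff_pder hu _).continuous.mul (contDiff_pder hu _).continuous

private lemma Est_meas (c : ℝ) : MeasurableSet {x : Fin (m + 1) → ℝ | sqn x ≤ c} :=
  (isClosed_le Est_sqn_cont continuous_const).measurableSet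

private lemma Est_compact (c : ℝ) : IsCompact {x : Fin (m + 1) → ℝ | sqn x ≤ c} := by
  refine Metric.isCompact_of_isClosed_isBounded (isClosed_le Est_sqn_cont continuous_const) ?_
  refine (Metric.isBounded_closedBall (x := (0 : Fin (m + 1) → ℝ)) (r := 1 + |c|)).subset ?_
  intro x hx
  rw [mem_closedBall_zero_iff, pi_norm_le_iff_of_nonneg (by positivity)]
  intro i
  have h1 : x i ^ 2 ≤ sqn x :=
    Finset.single_le_sum (f := fun i => x i ^ 2) (fun j _ => sq_nonneg (x j)) (Finset.mem_univ i)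
  have h2 : x i ^ 2 ≤ |c| := h1.trans ((show sqn x ≤ c from hx).trans (le_abs_self c))
  rw [Real.norm_eq_abs]
  refine abs_le_of_sq_le_sq ?_ (by positivity)
  nlinarith [abs_nonneg c]

private lemma Est_ion {f : (Fin (m + 1) → ℝ) → ℝ} (hf : Continuous f) (c : ℝ) :
    Integrable ({x : Fin (m + 1) → ℝ | sqn x ≤ c}.indicator f) := by
  rw [integrable_indicator_iff (Est_meas c)]
  exact hf.continuousOn.integrableOn_compact (Est_compact c)

private lemma Est_sq (a : ℝ) (x : Fin (m + 1) → ℝ) :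
    ((1 + rho x) ^ (-a / 2)) ^ 2 = (1 + rho x) ^ (-a) := by
  have h := Est_rho x
  rw [← Real.rpow_natCast, ← Real.rpow_mul (by positivity)]
  congr 1
  push_cast
  ring

private lemma Est_b1 (a : ℝ) (x : Fin (m + 1) → ℝ) :
    rho x * (1 + rho x) ^ (-a - 2) ≤ (1 + rho x) ^ (-a - 1) := by
  have h := Est_rho x
  have h1 : (1 + rho x) ^ (-a - 1) = (1 + rho x) ^ (-a - 2) * (1 + rho x) := by
    rw [show -a - 1 = (-a - 2) + 1 by ring, Real.rpow_add_one (by positivity)]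
  rw [h1]
  nlinarith [Est_wpos (-a - 2) x]

private lemma Est_b2 (a : ℝ) (x : Fin (m + 1) → ℝ) :
    (1 + rho x) ^ (-a - 1) ≤ (1 + rho x) ^ (-a) := by
  have h := Est_rho x
  exact Real.rpow_le_rpow_of_exponent_le (by linarith) (by linarith)

private lemma Est_tst (a : ℝ) {χ : (Fin (m + 1) → ℝ) → ℝ} (hχ : Tst χ) :
    Tst fun x => (1 + rho x) ^ (-a / 2) * χ x :=
  ⟨(wt_smooth a).mul hχ.s, hχ.c.mul_left⟩

theorem est1 (hm : 1 ≤ m) (hu : Sol u) {a : ℝ} (ha : 0 < a) (ham : 2 * a < m) :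
    ∃ C : ℝ, 0 < C ∧ ∀ R : ℝ, 1 ≤ R →
      ∫ x in {x : Fin (m + 1) → ℝ | sqn x ≤ 2 * R ^ 2}, (1 + rho x) ^ (-a) * gp u x ≤
        C * R ^ ((m : ℝ) + 1 - 2 * a) := by
  obtain ⟨C1, hC1, hcut⟩ := cutA m
  obtain ⟨C2, hC2, hvol⟩ := volW m hm ha ham
  refine ⟨(2 + 4 * (2 * a ^ 2 + 2 * C1)) * C2, by positivity, fun R hR => ?_⟩
  obtain ⟨χ, hχ, hχ01, hχ1, hχ0, hχd, hχd0⟩ := hcut (2 * R) (by linarith)
  have hψ := Est_tst a hχ
  have hc := caccW hu hψ
  have hsq : ∀ x : Fin (m + 1) → ℝ,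
      ((1 + rho x) ^ (-a / 2) * χ x) ^ 2 = (1 + rho x) ^ (-a) * χ x ^ 2 := fun x => by
    rw [mul_pow, Est_sq]
  -- the left side
  have hL : ∫ x in {x : Fin (m + 1) → ℝ | sqn x ≤ 2 * R ^ 2}, (1 + rho x) ^ (-a) * gp u x ≤
      ∫ x, ((1 + rho x) ^ (-a / 2) * χ x) ^ 2 * dd u u x := by
    rw [← integral_indicator (Est_meas _)]
    refine integral_mono_of_nonneg (Eventually.of_forall fun x => ?_) ?_
      (Eventually.of_forall fun x => ?_)
    · exact indicator_nonneg (fun y _ => mul_nonneg (Est_wpos _ y).le (Est_gp u y)) x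
    · have hcont : Continuous fun x : Fin (m + 1) → ℝ =>
          ((1 + rho x) ^ (-a / 2) * χ x) ^ 2 * dd u u x :=
        (hψ.s.continuous.pow 2).mul (Est_dd_cont hu.smooth)
      refine hcont.integrable_of_hasCompactSupport ?_
      have h1 : (fun x : Fin (m + 1) → ℝ => ((1 + rho x) ^ (-a / 2) * χ x) ^ 2 * dd u u x) =
          fun x => ((1 + rho x) ^ (-a / 2) * χ x) *
            (((1 + rho x) ^ (-a / 2) * χ x) * dd u u x) := by
        funext x
        ring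
      rw [h1]
      exact hψ.c.mul_right
    · simp only
      by_cases hx : sqn x ≤ 2 * R ^ 2
      · rw [indicator_of_mem (show x ∈ {x : Fin (m + 1) → ℝ | sqn x ≤ 2 * R ^ 2} from hx), hsq,
          hχ1 x (by nlinarith), one_pow, mul_one]
        exact mul_le_mul_of_nonneg_left (gp_le_dd u x) (Est_wpos _ x).le
      · rw [indicator_of_notMem (show x ∉ {x : Fin (m + 1) → ℝ | sqn x ≤ 2 * R ^ 2} from hx)]
        exact mul_nonneg (sq_nonneg _) (Est_dd u x)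
  have hI := Est_ion (Est_wc (m := m) (-a)) (8 * R ^ 2)
  have hM1 : ∫ x, ((1 + rho x) ^ (-a / 2) * χ x) ^ 2 ≤
      ∫ x in {x : Fin (m + 1) → ℝ | sqn x ≤ 8 * R ^ 2}, (1 + rho x) ^ (-a) := by
    rw [← integral_indicator (Est_meas _)]
    refine integral_mono_of_nonneg (Eventually.of_forall fun x => sq_nonneg _) hI
      (Eventually.of_forall fun x => ?_)
    simp only
    by_cases hx : sqn x ≤ 8 * R ^ 2
    · rw [indicator_of_mem (show x ∈ {x : Fin (m + 1) → ℝ | sqn x ≤ 8 * R ^ 2} from hx), hsq]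
      have h1 : χ x ^ 2 ≤ 1 := pow_le_one₀ (hχ01 x).1 (hχ01 x).2
      exact mul_le_of_le_one_right (Est_wpos _ x).le h1
    · rw [indicator_of_notMem (show x ∉ {x : Fin (m + 1) → ℝ | sqn x ≤ 8 * R ^ 2} from hx),
        hχ0 x (by nlinarith [not_le.mp hx])]
      simp
  have hM2 : ∫ x, dd (fun x : Fin (m + 1) → ℝ => (1 + rho x) ^ (-a / 2) * χ x)
      (fun x => (1 + rho x) ^ (-a / 2) * χ x) x ≤ (2 * a ^ 2 + 2 * C1) *
      ∫ x in {x : Fin (m + 1) → ℝ | sqn x ≤ 8 * R ^ 2}, (1 + rho x) ^ (-a) := by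
    rw [← integral_indicator (Est_meas _), ← integral_const_mul]
    refine integral_mono_of_nonneg (Eventually.of_forall fun x => Est_dd _ x)
      (hI.const_mul _) (Eventually.of_forall fun x => ?_)
    simp only
    have h0 := dd_mul_le (wt_smooth (m := m) a) hχ.s one_pos x
    rw [wt_grad, Est_sq] at h0
    refine h0.trans ?_
    have hw := Est_wpos (-a) x
    by_cases hx : sqn x ≤ 8 * R ^ 2
    · rw [indicator_of_mem (show x ∈ {x : Fin (m + 1) → ℝ | sqn x ≤ 8 * R ^ 2} from hx)]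
      have h1 : χ x ^ 2 ≤ 1 := pow_le_one₀ (hχ01 x).1 (hχ01 x).2
      have h2 : a ^ 2 * rho x * (1 + rho x) ^ (-a - 2) ≤ a ^ 2 * (1 + rho x) ^ (-a) := by
        rw [mul_assoc]
        exact mul_le_mul_of_nonneg_left ((Est_b1 a x).trans (Est_b2 a x)) (sq_nonneg a)
      have h20 : 0 ≤ a ^ 2 * (1 + rho x) ^ (-a) := by positivity
      have h3 : χ x ^ 2 * (a ^ 2 * rho x * (1 + rho x) ^ (-a - 2)) ≤
          a ^ 2 * (1 + rho x) ^ (-a) :=
        (mul_le_mul_of_nonneg_left h2 (sq_nonneg _)).trans (mul_le_of_le_one_left h20 h1)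
      have h4 : dd χ χ x ≤ C1 := by
        refine (hχd x).trans (div_le_self hC1.le ?_)
        nlinarith
      have h5 : (1 + rho x) ^ (-a) * dd χ χ x ≤ (1 + rho x) ^ (-a) * C1 :=
        mul_le_mul_of_nonneg_left h4 hw.le
      norm_num
      nlinarith
    · rw [indicator_of_notMem (show x ∉ {x : Fin (m + 1) → ℝ | sqn x ≤ 8 * R ^ 2} from hx),
        hχ0 x (by nlinarith [not_le.mp hx]), hχd0 x (by nlinarith [not_le.mp hx])]
      simp
  have hv := hvol R hR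
  have hV0 : 0 ≤ ∫ x in {x : Fin (m + 1) → ℝ | sqn x ≤ 8 * R ^ 2}, (1 + rho x) ^ (-a) :=
    integral_nonneg fun x => (Est_wpos _ x).le
  calc _ ≤ _ := hL
    _ ≤ _ := hc
    _ ≤ (2 + 4 * (2 * a ^ 2 + 2 * C1)) *
        ∫ x in {x : Fin (m + 1) → ℝ | sqn x ≤ 8 * R ^ 2}, (1 + rho x) ^ (-a) := by
      linarith
    _ ≤ (2 + 4 * (2 * a ^ 2 + 2 * C1)) * (C2 * R ^ ((m : ℝ) + 1 - 2 * a)) :=
      mul_le_mul_of_nonneg_left hv (by positivity)
    _ = _ := by ring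

theorem est2 (hm : 1 ≤ m) (hu : Sol u) {a : ℝ} (ha : 0 < a) (ham : 2 * a < m)
    (ha2 : a ^ 2 < (m : ℝ) - 1) :
    ∃ C : ℝ, 0 < C ∧ ∀ R : ℝ, 1 ≤ R →
      ∫ x in {x : Fin (m + 1) → ℝ | sqn x ≤ R ^ 2}, (1 + rho x) ^ (-a - 1) * gp u x ≤
        C * R ^ ((m : ℝ) - 1 - 2 * a) := by
  obtain ⟨C1, hC1, hcut⟩ := cutA m
  obtain ⟨C2, hC2, he1⟩ := est1 hm hu ha ham
  obtain ⟨δ, hδ⟩ : ∃ δ : ℝ, δ = ((m : ℝ) - 1 - a ^ 2) / (2 * a ^ 2) := ⟨_, rfl⟩
  obtain ⟨κ, hκ⟩ : ∃ κ : ℝ, κ = ((m : ℝ) - 1 - a ^ 2) / 2 := ⟨_, rfl⟩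
  have hδ0 : 0 < δ := by
    rw [hδ]
    exact div_pos (by linarith) (by positivity)
  have hκ0 : 0 < κ := by
    rw [hκ]
    linarith
  have hδκ : (m : ℝ) - 1 - (1 + δ) * a ^ 2 = κ := by
    rw [hδ, hκ]
    field_simp
    ring
  refine ⟨(1 + 1 / δ) * C1 * C2 / κ, by positivity, fun R hR => ?_⟩
  obtain ⟨χ, hχ, hχ01, hχ1, hχ0, hχd, hχd0⟩ := hcut R hR
  have hR0 : 0 < R := by linarith
  have hζ := Est_tst a hχ
  have hk := key hm hu hζ
  have e1 := he1 R hR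
  have hJc : Continuous fun x : Fin (m + 1) → ℝ => χ x ^ 2 * ((1 + rho x) ^ (-a - 1) * gp u x) :=
    (hχ.s.continuous.pow 2).mul ((Est_wc _).mul (Est_gp_cont hu.smooth))
  have hJ : Integrable fun x : Fin (m + 1) → ℝ =>
      χ x ^ 2 * ((1 + rho x) ^ (-a - 1) * gp u x) := by
    refine hJc.integrable_of_hasCompactSupport ?_
    have h1 : (fun x : Fin (m + 1) → ℝ => χ x ^ 2 * ((1 + rho x) ^ (-a - 1) * gp u x)) =
        fun x => χ x * (χ x * ((1 + rho x) ^ (-a - 1) * gp u x)) := by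
      funext x
      ring
    rw [h1]
    exact hχ.c.mul_right
  have hS : Integrable ({x : Fin (m + 1) → ℝ | sqn x ≤ 2 * R ^ 2}.indicator
      fun x => (1 + rho x) ^ (-a) * gp u x) :=
    Est_ion ((Est_wc _).mul (Est_gp_cont hu.smooth)) _
  -- left side of `key`
  have hl : ∫ x, ((1 + rho x) ^ (-a / 2) * χ x) ^ 2 * (gp u x / (1 + rho x)) =
      ∫ x, χ x ^ 2 * ((1 + rho x) ^ (-a - 1) * gp u x) := by
    refine integral_congr_ae (Eventually.of_forall fun x => ?_)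
    have h := Est_rho x
    have h1 : (1 + rho x) ^ (-a - 1) = (1 + rho x) ^ (-a) / (1 + rho x) := by
      rw [Real.rpow_sub_one (by positivity)]
    simp only
    rw [mul_pow, Est_sq, h1]
    ring
  rw [hl] at hk
  have hr : ∫ x, gp u x * dd (fun x : Fin (m + 1) → ℝ => (1 + rho x) ^ (-a / 2) * χ x)
      (fun x => (1 + rho x) ^ (-a / 2) * χ x) x ≤
      ((1 + δ) * a ^ 2) * (∫ x, χ x ^ 2 * ((1 + rho x) ^ (-a - 1) * gp u x)) +
      ((1 + 1 / δ) * (C1 / R ^ 2)) *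
        ∫ x in {x : Fin (m + 1) → ℝ | sqn x ≤ 2 * R ^ 2}, (1 + rho x) ^ (-a) * gp u x := by
    rw [← integral_indicator (Est_meas _), ← integral_const_mul, ← integral_const_mul]
    rw [← integral_add (hJ.const_mul _) (hS.const_mul _)]
    refine integral_mono_of_nonneg
      (Eventually.of_forall fun x => mul_nonneg (Est_gp u x) (Est_dd _ x))
      ((hJ.const_mul _).add (hS.const_mul _)) (Eventually.of_forall fun x => ?_)
    simp only
    have h0 := dd_mul_le (wt_smooth (m := m) a) hχ.s hδ0 x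
    rw [wt_grad, Est_sq] at h0
    have hw := Est_wpos (-a) x
    have hg := Est_gp u x
    refine (mul_le_mul_of_nonneg_left h0 hg).trans ?_
    have h2 : a ^ 2 * rho x * (1 + rho x) ^ (-a - 2) ≤ a ^ 2 * (1 + rho x) ^ (-a - 1) := by
      rw [mul_assoc]
      exact mul_le_mul_of_nonneg_left (Est_b1 a x) (sq_nonneg a)
    have h3 : gp u x * ((1 + δ) * (χ x ^ 2 * (a ^ 2 * rho x * (1 + rho x) ^ (-a - 2)))) ≤
        (1 + δ) * a ^ 2 * (χ x ^ 2 * ((1 + rho x) ^ (-a - 1) * gp u x)) := by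
      calc gp u x * ((1 + δ) * (χ x ^ 2 * (a ^ 2 * rho x * (1 + rho x) ^ (-a - 2)))) =
          (gp u x * (1 + δ) * χ x ^ 2) * (a ^ 2 * rho x * (1 + rho x) ^ (-a - 2)) := by ring
        _ ≤ (gp u x * (1 + δ) * χ x ^ 2) * (a ^ 2 * (1 + rho x) ^ (-a - 1)) :=
          mul_le_mul_of_nonneg_left h2 (by positivity)
        _ = _ := by ring
    have h4 : gp u x * ((1 + 1 / δ) * ((1 + rho x) ^ (-a) * dd χ χ x)) ≤
        (1 + 1 / δ) * (C1 / R ^ 2) * {x : Fin (m + 1) → ℝ | sqn x ≤ 2 * R ^ 2}.indicator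
          (fun x => (1 + rho x) ^ (-a) * gp u x) x := by
      by_cases hx : sqn x ≤ 2 * R ^ 2
      · rw [indicator_of_mem (show x ∈ {x : Fin (m + 1) → ℝ | sqn x ≤ 2 * R ^ 2} from hx)]
        calc gp u x * ((1 + 1 / δ) * ((1 + rho x) ^ (-a) * dd χ χ x)) =
            (gp u x * (1 + 1 / δ) * (1 + rho x) ^ (-a)) * dd χ χ x := by ring
          _ ≤ (gp u x * (1 + 1 / δ) * (1 + rho x) ^ (-a)) * (C1 / R ^ 2) :=
            mul_le_mul_of_nonneg_left (hχd x) (by positivity)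
          _ = _ := by ring
      · rw [indicator_of_notMem (show x ∉ {x : Fin (m + 1) → ℝ | sqn x ≤ 2 * R ^ 2} from hx),
          hχd0 x (not_le.mp hx)]
        simp
    rw [mul_add]
    exact add_le_add h3 h4
  have hI : κ * (∫ x, χ x ^ 2 * ((1 + rho x) ^ (-a - 1) * gp u x)) ≤
      ((1 + 1 / δ) * (C1 / R ^ 2)) * (C2 * R ^ ((m : ℝ) + 1 - 2 * a)) := by
    have h1 := mul_le_mul_of_nonneg_left e1
      (show (0 : ℝ) ≤ (1 + 1 / δ) * (C1 / R ^ 2) by positivity)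
    have h2 := hk.trans hr
    rw [← hδκ, sub_mul]
    linarith
  have hLs : ∫ x in {x : Fin (m + 1) → ℝ | sqn x ≤ R ^ 2}, (1 + rho x) ^ (-a - 1) * gp u x ≤
      ∫ x, χ x ^ 2 * ((1 + rho x) ^ (-a - 1) * gp u x) := by
    rw [← integral_indicator (Est_meas _)]
    refine integral_mono_of_nonneg (Eventually.of_forall fun x => ?_) hJ
      (Eventually.of_forall fun x => ?_)
    · exact indicator_nonneg (fun y _ => mul_nonneg (Est_wpos _ y).le (Est_gp u y)) x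
    · simp only
      by_cases hx : sqn x ≤ R ^ 2
      · rw [indicator_of_mem (show x ∈ {x : Fin (m + 1) → ℝ | sqn x ≤ R ^ 2} from hx),
          hχ1 x hx, one_pow, one_mul]
      · rw [indicator_of_notMem (show x ∉ {x : Fin (m + 1) → ℝ | sqn x ≤ R ^ 2} from hx)]
        exact mul_nonneg (sq_nonneg _) (mul_nonneg (Est_wpos _ x).le (Est_gp u x))
  have hpow : R ^ ((m : ℝ) + 1 - 2 * a) = R ^ ((m : ℝ) - 1 - 2 * a) * R ^ 2 := by
    rw [← Real.rpow_natCast R 2, ← Real.rpow_add hR0]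
    congr 1
    push_cast
    ring
  refine hLs.trans ?_
  rw [hpow] at hI
  rw [div_mul_eq_mul_div, le_div_iff₀ hκ0]
  calc (∫ x, χ x ^ 2 * ((1 + rho x) ^ (-a - 1) * gp u x)) * κ =
      κ * (∫ x, χ x ^ 2 * ((1 + rho x) ^ (-a - 1) * gp u x)) := mul_comm _ _
    _ ≤ _ := hI
    _ = _ := by
      field_simp

end Vale.Agent.P134
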