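import Vale.Agent.Lib.P134A.Key
import Vale.Agent.Lib.P134A.CutA

/-!
# P134A EstB: the second estimate from the first one
-/

namespace Vale.Agent.P134

open Set MeasureTheory Filter Vale.Agent.P222
open scoped Topology ContDiff

variable {m : ℕ} {u : (Fin (m + 1) → ℝ) → ℝ}

private theorem EstB_rho : Continuous (rho : (Fin (m + 1) → ℝ) → ℝ) := by
  unfold rho
  fun_prop

private theorem EstB_sqn : Continuous (sqn : (Fin (m + 1) → ℝ) → ℝ) := by
  unfold sqn
  fun_prop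

private theorem EstB_compact (r : ℝ) : IsCompact {x : Fin (m + 1) → ℝ | sqn x ≤ r} := by
  refine (isCompact_closedBall (0 : Fin (m + 1) → ℝ) √r).of_isClosed_subset
    (isClosed_le EstB_sqn continuous_const) ?_
  intro x hx
  rw [mem_closedBall_zero_iff, pi_norm_le_iff_of_nonneg (Real.sqrt_nonneg _)]
  intro i
  rw [Real.norm_eq_abs]
  refine Real.abs_le_sqrt (le_trans ?_ hx)
  unfold sqn
  exact Finset.single_le_sum (f := fun i => x i ^ 2) (fun j _ => sq_nonneg _) (Finset.mem_univ i)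

theorem est2B (hm : 1 ≤ m) (hu : Sol u) {a : ℝ} (ha : 0 < a)
    (ha2 : a ^ 2 < (m : ℝ) - 1)
    (h1 : ∃ C : ℝ, 0 < C ∧ ∀ R : ℝ, 1 ≤ R →
      ∫ x in {x : Fin (m + 1) → ℝ | sqn x ≤ 2 * R ^ 2}, (1 + rho x) ^ (-a) * gp u x ≤
        C * R ^ ((m : ℝ) + 1 - 2 * a)) :
    ∃ C : ℝ, 0 < C ∧ ∀ R : ℝ, 1 ≤ R →
      ∫ x in {x : Fin (m + 1) → ℝ | sqn x ≤ R ^ 2}, (1 + rho x) ^ (-a - 1) * gp u x ≤
        C * R ^ ((m : ℝ) - 1 - 2 * a) := by
  obtain ⟨C1, hC1, hcut⟩ := cutA m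
  obtain ⟨C2, hC2, hest⟩ := h1
  obtain ⟨δ, hδd⟩ : ∃ δ : ℝ, δ = ((m : ℝ) - 1 - a ^ 2) / (2 * a ^ 2) := ⟨_, rfl⟩
  have hδ : 0 < δ := by
    rw [hδd]
    have : 0 < (m : ℝ) - 1 - a ^ 2 := by linarith
    positivity
  obtain ⟨c0, hc0d⟩ : ∃ c0 : ℝ, c0 = ((m : ℝ) - 1 - a ^ 2) / 2 := ⟨_, rfl⟩
  have hc0 : 0 < c0 := by rw [hc0d]; linarith
  have hδa : (1 + δ) * a ^ 2 = (m : ℝ) - 1 - c0 := by
    rw [hδd, hc0d]
    field_simp
    ring
  have hgp0 : ∀ y, 0 ≤ gp u y := fun y => Finset.sum_nonneg fun i _ => sq_nonneg _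
  have hrho0 : ∀ y : Fin (m + 1) → ℝ, 0 ≤ rho y := fun y => Finset.sum_nonneg fun i _ => sq_nonneg _
  have h1r : ∀ y : Fin (m + 1) → ℝ, 0 < 1 + rho y := fun y => by linarith [hrho0 y]
  have hgpc : Continuous (gp u) := by
    unfold gp
    refine continuous_finsetSum _ fun i _ => ?_
    exact (contDiff_pder hu.smooth i.castSucc).continuous.pow 2
  have hpc : ∀ p : ℝ, Continuous fun y : Fin (m + 1) → ℝ => (1 + rho y) ^ p := fun p =>
    (continuous_const.add EstB_rho).rpow_const fun y => Or.inl (h1r y).ne'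
  refine ⟨(1 + 1 / δ) * C1 * C2 / c0, by positivity, fun R hR => ?_⟩
  have hR0 : 0 < R := by linarith
  obtain ⟨χ, hχ, hχ1, hχ2, hχ3, hχ4, hχ5⟩ := hcut R hR
  set w : (Fin (m + 1) → ℝ) → ℝ := fun x => (1 + rho x) ^ (-a / 2) with hw
  have hws : ContDiff ℝ ∞ w := wt_smooth a
  have hζ : Tst (fun x => w x * χ x) := ⟨hws.mul hχ.s, hχ.c.mul_left⟩
  have hkey := key hm hu hζ
  -- squares of the weight
  have hw2 : ∀ y, w y ^ 2 = (1 + rho y) ^ (-a) := by
    intro y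
    rw [hw]
    beta_reduce
    rw [← Real.rpow_natCast, ← Real.rpow_mul (h1r y).le]
    congr 1
    push_cast
    ring
  have hdiv : ∀ y : Fin (m + 1) → ℝ, (1 + rho y) ^ (-a) / (1 + rho y) =
      (1 + rho y) ^ (-a - 1) := by
    intro y
    rw [Real.rpow_sub (h1r y), Real.rpow_one]
  set G : (Fin (m + 1) → ℝ) → ℝ := fun y => χ y ^ 2 * ((1 + rho y) ^ (-a - 1) * gp u y) with hG
  have hG0 : ∀ y, 0 ≤ G y := fun y =>
    mul_nonneg (sq_nonneg _) (mul_nonneg (Real.rpow_nonneg (h1r y).le _) (hgp0 y))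
  have hGi : Integrable G := by
    refine Continuous.integrable_of_hasCompactSupport ?_ ?_
    · exact (hχ.s.continuous.pow 2).mul ((hpc _).mul hgpc)
    · refine HasCompactSupport.mul_right ?_
      refine hχ.c.comp_left (g := fun t : ℝ => t ^ 2) (by norm_num)
  have hL : ∫ x, (w x * χ x) ^ 2 * (gp u x / (1 + rho x)) = ∫ x, G x := by
    congr 1
    funext x
    rw [hG]
    beta_reduce
    rw [mul_pow, hw2, ← hdiv]
    ring
  rw [hL] at hkey
  -- the right side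
  set A : Set (Fin (m + 1) → ℝ) := {x | sqn x ≤ 2 * R ^ 2} with hA
  have hAm : MeasurableSet A := (EstB_compact _).measurableSet
  set F : (Fin (m + 1) → ℝ) → ℝ := fun x => (1 + rho x) ^ (-a) * gp u x with hF
  have hF0 : ∀ y, 0 ≤ F y := fun y => mul_nonneg (Real.rpow_nonneg (h1r y).le _) (hgp0 y)
  have hFi : IntegrableOn F A :=
    ((hpc _).mul hgpc).continuousOn.integrableOn_compact (EstB_compact _)
  have hdd0 : ∀ (f : (Fin (m + 1) → ℝ) → ℝ) (x : Fin (m + 1) → ℝ), 0 ≤ dd f f x := by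
    intro f x
    unfold dd
    exact Finset.sum_nonneg fun j _ => mul_self_nonneg _
  have hpt : ∀ x, gp u x * dd (fun x => w x * χ x) (fun x => w x * χ x) x ≤
      (1 + δ) * a ^ 2 * G x + (1 + 1 / δ) * (C1 / R ^ 2) * A.indicator F x := by
    intro x
    have e1 := dd_mul_le hws hχ.s hδ x
    have e2 : dd w w x = a ^ 2 * rho x * (1 + rho x) ^ (-a - 2) := wt_grad a x
    rw [e2, hw2] at e1
    have e3 : rho x * (1 + rho x) ^ (-a - 2) ≤ (1 + rho x) ^ (-a - 1) := by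
      have e4 : (1 + rho x) ^ (-a - 1) = (1 + rho x) * (1 + rho x) ^ (-a - 2) := by
        rw [show -a - 1 = 1 + (-a - 2) by ring, Real.rpow_add (h1r x), Real.rpow_one]
      rw [e4]
      have := Real.rpow_nonneg (h1r x).le (-a - 2)
      nlinarith [hrho0 x]
    have e5 : gp u x * ((1 + δ) * (χ x ^ 2 * (a ^ 2 * rho x * (1 + rho x) ^ (-a - 2)))) ≤
        (1 + δ) * a ^ 2 * G x := by
      have e6 : gp u x * ((1 + δ) * (χ x ^ 2 * (a ^ 2 * rho x * (1 + rho x) ^ (-a - 2)))) =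
          ((1 + δ) * a ^ 2 * (χ x ^ 2 * gp u x)) * (rho x * (1 + rho x) ^ (-a - 2)) := by ring
      have e7 : (1 + δ) * a ^ 2 * G x =
          ((1 + δ) * a ^ 2 * (χ x ^ 2 * gp u x)) * (1 + rho x) ^ (-a - 1) := by
        rw [hG]
        beta_reduce
        ring
      rw [e6, e7]
      refine mul_le_mul_of_nonneg_left e3 ?_
      have := hgp0 x
      positivity
    have e8 : gp u x * ((1 + 1 / δ) * ((1 + rho x) ^ (-a) * dd χ χ x)) ≤
        (1 + 1 / δ) * (C1 / R ^ 2) * A.indicator F x := by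
      by_cases hx : x ∈ A
      · rw [indicator_of_mem hx]
        have e9 : gp u x * ((1 + 1 / δ) * ((1 + rho x) ^ (-a) * dd χ χ x)) =
            ((1 + 1 / δ) * F x) * dd χ χ x := by
          rw [hF]
          beta_reduce
          ring
        rw [e9, show (1 + 1 / δ) * (C1 / R ^ 2) * F x = ((1 + 1 / δ) * F x) * (C1 / R ^ 2) by ring]
        refine mul_le_mul_of_nonneg_left (hχ4 x) ?_
        have := hF0 x
        positivity
      · rw [indicator_of_notMem hx, mul_zero]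
        have : dd χ χ x = 0 := hχ5 x (not_le.1 hx)
        rw [this]
        simp
    calc gp u x * dd (fun x => w x * χ x) (fun x => w x * χ x) x
        ≤ gp u x * ((1 + δ) * (χ x ^ 2 * (a ^ 2 * rho x * (1 + rho x) ^ (-a - 2))) +
          (1 + 1 / δ) * ((1 + rho x) ^ (-a) * dd χ χ x)) :=
          mul_le_mul_of_nonneg_left e1 (hgp0 x)
      _ ≤ _ := by
          rw [mul_add]
          exact add_le_add e5 e8
  have hIi : Integrable (A.indicator F) := hFi.integrable_indicator hAm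
  have hR2 : ∫ x, gp u x * dd (fun x => w x * χ x) (fun x => w x * χ x) x ≤
      (1 + δ) * a ^ 2 * (∫ x, G x) + (1 + 1 / δ) * (C1 / R ^ 2) * ∫ x in A, F x := by
    refine (integral_mono_of_nonneg (Eventually.of_forall fun x => ?_)
      ((hGi.const_mul ((1 + δ) * a ^ 2)).add (hIi.const_mul ((1 + 1 / δ) * (C1 / R ^ 2))))
      (Eventually.of_forall hpt)).trans (le_of_eq ?_)
    · exact mul_nonneg (hgp0 x) (hdd0 _ _)
    · simp only [Pi.add_apply]
      rw [integral_add (hGi.const_mul _) (hIi.const_mul _), integral_const_mul,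
        integral_const_mul, integral_indicator hAm]
  have hfin := hkey.trans hR2
  rw [hδa] at hfin
  have hb := hest R hR
  have hGR : c0 * ∫ x, G x ≤ (1 + 1 / δ) * (C1 / R ^ 2) * (C2 * R ^ ((m : ℝ) + 1 - 2 * a)) := by
    have hb' : (1 + 1 / δ) * (C1 / R ^ 2) * ∫ x in A, F x ≤
        (1 + 1 / δ) * (C1 / R ^ 2) * (C2 * R ^ ((m : ℝ) + 1 - 2 * a)) :=
      mul_le_mul_of_nonneg_left hb (by positivity)
    linarith
  have hset : ∫ x in {x : Fin (m + 1) → ℝ | sqn x ≤ R ^ 2}, (1 + rho x) ^ (-a - 1) * gp u x ≤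
      ∫ x, G x := by
    have hBm : MeasurableSet {x : Fin (m + 1) → ℝ | sqn x ≤ R ^ 2} :=
      (EstB_compact _).measurableSet
    have e1 : ∫ x in {x : Fin (m + 1) → ℝ | sqn x ≤ R ^ 2}, (1 + rho x) ^ (-a - 1) * gp u x =
        ∫ x in {x : Fin (m + 1) → ℝ | sqn x ≤ R ^ 2}, G x := by
      refine setIntegral_congr_fun hBm fun x hx => ?_
      have hx' : sqn x ≤ R ^ 2 := hx
      simp only [hG]
      rw [hχ2 x hx', one_pow, one_mul]
    rw [e1]
    exact setIntegral_le_integral hGi (Eventually.of_forall hG0)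
  have hRp : R ^ ((m : ℝ) + 1 - 2 * a) / R ^ 2 = R ^ ((m : ℝ) - 1 - 2 * a) := by
    rw [← Real.rpow_natCast R 2, ← Real.rpow_sub hR0]
    congr 1
    push_cast
    ring
  refine hset.trans ?_
  rw [← hRp]
  have : ∫ x, G x ≤ ((1 + 1 / δ) * (C1 / R ^ 2) * (C2 * R ^ ((m : ℝ) + 1 - 2 * a))) / c0 := by
    rw [le_div_iff₀ hc0]
    linarith
  refine this.trans (le_of_eq ?_)
  ring

end Vale.Agent.P134
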