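import Vale.Agent.Lib.P134A.Est

/-!
# P134A FinA: conclusion

`gp_zero`: if `gp u x₀ > 0`, the left side of `est2` is at least a positive constant for large `R`, but the right side tends
to `0` (`m - 1 - 2a < 0`). `one_dim`: `∂ᵢ u = 0` for `i < n`, so `u` depends only on the last variable.
-/

namespace Vale.Agent.P134

open Set MeasureTheory Filter Vale.Agent.P222
open scoped Topology ContDiff

variable {m : ℕ} {u : (Fin (m + 1) → ℝ) → ℝ}

private theorem FinA_rho : Continuous (rho : (Fin (m + 1) → ℝ) → ℝ) := by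
  unfold rho
  fun_prop

private theorem FinA_sqn : Continuous (sqn : (Fin (m + 1) → ℝ) → ℝ) := by
  unfold sqn
  fun_prop

private theorem FinA_compact (r : ℝ) : IsCompact {x : Fin (m + 1) → ℝ | sqn x ≤ r} := by
  refine (isCompact_closedBall (0 : Fin (m + 1) → ℝ) √r).of_isClosed_subset
    (isClosed_le FinA_sqn continuous_const) ?_
  intro x hx
  rw [mem_closedBall_zero_iff, pi_norm_le_iff_of_nonneg (Real.sqrt_nonneg _)]
  intro i
  rw [Real.norm_eq_abs]
  refine Real.abs_le_sqrt (le_trans ?_ hx)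
  unfold sqn
  exact Finset.single_le_sum (f := fun i => x i ^ 2) (fun j _ => sq_nonneg _) (Finset.mem_univ i)

theorem gp_zero (hm : 1 ≤ m) (hu : Sol u) {a : ℝ} (ha : 0 < a) (ham : 2 * a < m)
    (ha1 : (m : ℝ) - 1 < 2 * a) (ha2 : a ^ 2 < (m : ℝ) - 1) (x : Fin (m + 1) → ℝ) : gp u x = 0 := by
  by_contra hne
  have hgp0 : ∀ y, 0 ≤ gp u y := fun y => Finset.sum_nonneg fun i _ => sq_nonneg _
  have hrho0 : ∀ y : Fin (m + 1) → ℝ, 0 ≤ rho y := fun y => Finset.sum_nonneg fun i _ => sq_nonneg _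
  have hpos : 0 < gp u x := lt_of_le_of_ne (hgp0 x) (Ne.symm hne)
  have hgpc : Continuous (gp u) := by
    unfold gp
    refine continuous_finsetSum _ fun i _ => ?_
    exact (contDiff_pder hu.smooth i.castSucc).continuous.pow 2
  obtain ⟨C, hC, hest⟩ := est2 hm hu ha ham ha2
  set F : (Fin (m + 1) → ℝ) → ℝ := fun y => (1 + rho y) ^ (-a - 1) * gp u y with hF
  have h1r : ∀ y : Fin (m + 1) → ℝ, 0 < 1 + rho y := fun y => by linarith [hrho0 y]
  have hFc : Continuous F := by
    refine Continuous.mul ?_ hgpc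
    exact (continuous_const.add FinA_rho).rpow_const fun y => Or.inl (h1r y).ne'
  have hF0 : ∀ y, 0 ≤ F y := fun y => mul_nonneg (Real.rpow_nonneg (h1r y).le _) (hgp0 y)
  have hFx : 0 < F x := mul_pos (Real.rpow_pos_of_pos (h1r x) _) hpos
  set R0 : ℝ := 1 + |sqn x| with hR0
  have hR01 : 1 ≤ R0 := by
    have := abs_nonneg (sqn x)
    linarith
  have hxR : sqn x < R0 ^ 2 := by
    have := le_abs_self (sqn x)
    nlinarith
  have hint : ∀ r : ℝ, IntegrableOn F {y : Fin (m + 1) → ℝ | sqn y ≤ r} := fun r =>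
    hFc.continuousOn.integrableOn_compact (FinA_compact r)
  have hI0 : 0 < ∫ y in {y : Fin (m + 1) → ℝ | sqn y ≤ R0 ^ 2}, F y := by
    rw [setIntegral_pos_iff_support_of_nonneg_ae (Eventually.of_forall hF0) (hint _)]
    have hopen : IsOpen {y : Fin (m + 1) → ℝ | 0 < F y ∧ sqn y < R0 ^ 2} :=
      (isOpen_lt continuous_const hFc).inter (isOpen_lt FinA_sqn continuous_const)
    refine lt_of_lt_of_le (hopen.measure_pos volume ⟨x, hFx, hxR⟩) (measure_mono ?_)
    intro y hy
    exact ⟨hy.1.ne', hy.2.le⟩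
  have hlim : Tendsto (fun R : ℝ => C * R ^ (-(2 * a - ((m : ℝ) - 1)))) atTop (𝓝 (C * 0)) :=
    (tendsto_rpow_neg_atTop (by linarith)).const_mul C
  rw [mul_zero] at hlim
  obtain ⟨R, hR1, hR2⟩ := ((hlim.eventually_lt_const hI0).and (eventually_ge_atTop R0)).exists
  have h2 := hest R (hR01.trans hR2)
  rw [show (m : ℝ) - 1 - 2 * a = -(2 * a - ((m : ℝ) - 1)) by ring] at h2
  have h3 : ∫ y in {y : Fin (m + 1) → ℝ | sqn y ≤ R0 ^ 2}, F y ≤
      ∫ y in {y : Fin (m + 1) → ℝ | sqn y ≤ R ^ 2}, F y := by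
    refine setIntegral_mono_set (hint _) (Eventually.of_forall hF0) (Eventually.of_forall ?_)
    intro y hy
    have h4 : sqn y ≤ R0 ^ 2 := hy
    have h5 : R0 ^ 2 ≤ R ^ 2 := pow_le_pow_left₀ (by linarith) hR2 2
    exact h4.trans h5
  linarith

theorem one_dim (hu : ContDiff ℝ ∞ u) (h : ∀ x, gp u x = 0) :
    ∃ h : ℝ → ℝ, ∀ x, u x = h (x (Fin.last m)) := by
  refine ⟨fun t => u (Pi.single (Fin.last m) t), fun x => ?_⟩
  have hp : ∀ (i : Fin m) (x : Fin (m + 1) → ℝ), pder i.castSucc u x = 0 := by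
    intro i x
    have h1 := h x
    unfold gp at h1
    have h2 := (Finset.sum_eq_zero_iff_of_nonneg (fun i _ => sq_nonneg _)).1 h1 i
      (Finset.mem_univ i)
    exact (pow_eq_zero_iff two_ne_zero).1 h2
  obtain ⟨y, hy⟩ : ∃ y : Fin (m + 1) → ℝ, y = Pi.single (Fin.last m) (x (Fin.last m)) := ⟨_, rfl⟩
  have hd : ∀ s : ℝ, HasDerivAt (fun s : ℝ => u (y + s • (x - y))) 0 s := by
    intro s
    have h1 : HasDerivAt (fun s : ℝ => y + s • (x - y)) (x - y) s := by
      simpa using ((hasDerivAt_id s).smul_const (x - y)).const_add y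
    have h2 := (smooth_differentiable hu (y + s • (x - y))).hasFDerivAt.comp_hasDerivAt s h1
    have h3 : fderiv ℝ u (y + s • (x - y)) (x - y) = 0 := by
      rw [fderiv_eq_sum_pder, Fin.sum_univ_castSucc]
      rw [show (x - y) (Fin.last m) = 0 by simp [hy]]
      simp [hp]
    rw [h3] at h2
    exact h2
  have h4 := is_const_of_deriv_eq_zero (fun s => (hd s).differentiableAt) (fun s => (hd s).deriv) 1 0
  beta_reduce
  rw [← hy]
  simpa using h4

end Vale.Agent.P134
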