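import Vale.Agent.Lib.P134A.Defs

/-!
# P134A Geo: the pointwise inequality for axially symmetric functions

`rot`: `xⱼ ∂ᵢ u = xᵢ ∂ⱼ u` (derivative of `u` along rotations in the `(xᵢ, xⱼ)`-plane). Differentiate `rot`:
`δₖⱼ uᵢ + xⱼ uᵢₖ = δₖᵢ uⱼ + xᵢ uⱼₖ`; for `ρ > 0` it follows that `uᵢ = c xᵢ`, `uᵢₖ = c δᵢₖ + d xᵢ xₖ`, `u_{it} = e xᵢ`, so
`∑ |∇uᵢ|² - |∑ uᵢ ∇uᵢ|²/(|∇'u|²+ε) ≥ (m-1) c² = (m-1) |∇'u|²/ρ²`. For `ρ = 0`: `∇'u = 0`.
-/

namespace Vale.Agent.P134

open Set MeasureTheory Filter Vale.Agent.P222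
open scoped Topology ContDiff

variable {m : ℕ} {u : (Fin (m + 1) → ℝ) → ℝ}

/-- change two coordinates -/
private noncomputable def Geo_c (x : Fin (m + 1) → ℝ) (i j : Fin m) (a b : ℝ) : Fin (m + 1) → ℝ :=
  x + a • Pi.single i.castSucc (1 : ℝ) + b • Pi.single j.castSucc (1 : ℝ)

private lemma Geo_rho (x : Fin (m + 1) → ℝ) {i j : Fin m} (hij : i ≠ j) (a b : ℝ) :
    rho (Geo_c x i j a b) = rho x + (2 * a * x i.castSucc + a ^ 2) +
      (2 * b * x j.castSucc + b ^ 2) := by
  unfold rho Geo_c
  have h : ∀ k : Fin m, (x + a • Pi.single i.castSucc (1 : ℝ) +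
      b • Pi.single j.castSucc (1 : ℝ) : Fin (m + 1) → ℝ) k.castSucc ^ 2 =
      x k.castSucc ^ 2 + (if k = i then 2 * a * x i.castSucc + a ^ 2 else 0) +
        (if k = j then 2 * b * x j.castSucc + b ^ 2 else 0) := by
    intro k
    simp only [Pi.add_apply, Pi.smul_apply, smul_eq_mul, Pi.single_apply, Fin.castSucc_inj]
    by_cases h1 : k = i
    · subst h1
      simp [hij]
      ring
    · by_cases h2 : k = j
      · subst h2
        simp [h1]
        ring
      · simp [h1, h2]
  simp_rw [h]
  rw [Finset.sum_add_distrib, Finset.sum_add_distrib]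
  simp

theorem rot (hu : Sol u) (i j : Fin m) (x : Fin (m + 1) → ℝ) :
    x j.castSucc * pder i.castSucc u x = x i.castSucc * pder j.castSucc u x := by
  by_cases hij : i = j
  · rw [hij]
  set a : ℝ → ℝ := fun θ => (Real.cos θ - 1) * x i.castSucc - Real.sin θ * x j.castSucc with ha
  set b : ℝ → ℝ := fun θ => Real.sin θ * x i.castSucc + (Real.cos θ - 1) * x j.castSucc with hb
  have ha' : HasDerivAt a (-x j.castSucc) 0 := by
    have h1 := ((Real.hasDerivAt_cos 0).sub_const 1).mul_const (x i.castSucc)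
    have h2 := (Real.hasDerivAt_sin 0).mul_const (x j.castSucc)
    have h3 := h1.sub h2
    have e : -Real.sin 0 * x i.castSucc - Real.cos 0 * x j.castSucc = -x j.castSucc := by simp
    rw [e] at h3
    exact h3
  have hb' : HasDerivAt b (x i.castSucc) 0 := by
    have h1 := (Real.hasDerivAt_sin 0).mul_const (x i.castSucc)
    have h2 := ((Real.hasDerivAt_cos 0).sub_const 1).mul_const (x j.castSucc)
    have h3 := h1.add h2
    have e : Real.cos 0 * x i.castSucc + -Real.sin 0 * x j.castSucc = x i.castSucc := by simp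
    rw [e] at h3
    exact h3
  have hg : HasDerivAt (fun θ => Geo_c x i j (a θ) (b θ))
      ((-x j.castSucc) • (Pi.single i.castSucc (1 : ℝ) : Fin (m + 1) → ℝ) +
        (x i.castSucc) • (Pi.single j.castSucc (1 : ℝ) : Fin (m + 1) → ℝ)) 0 := by
    unfold Geo_c
    exact ((ha'.smul_const _).const_add x).add (hb'.smul_const _)
  have hg0 : Geo_c x i j (a 0) (b 0) = x := by
    simp [Geo_c, ha, hb]
  have hconst : ∀ θ, u (Geo_c x i j (a θ) (b θ)) = u x := by
    intro θ
    apply hu.axial
    · rw [Geo_rho x hij, ha, hb]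
      have := Real.sin_sq_add_cos_sq θ
      simp only
      linear_combination (x i.castSucc ^ 2 + x j.castSucc ^ 2) * this
    · have h1 : Fin.last m ≠ i.castSucc := (Fin.castSucc_lt_last i).ne'
      have h2 : Fin.last m ≠ j.castSucc := (Fin.castSucc_lt_last j).ne'
      simp [Geo_c, Pi.single_apply, h1, h2]
  have hd : HasFDerivAt u (fderiv ℝ u x) (Geo_c x i j (a 0) (b 0)) := by
    rw [hg0]
    exact (smooth_differentiable hu.smooth x).hasFDerivAt
  have h1 := hd.comp_hasDerivAt 0 hg
  have h2 : HasDerivAt (u ∘ fun θ => Geo_c x i j (a θ) (b θ)) 0 0 := by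
    have : (u ∘ fun θ => Geo_c x i j (a θ) (b θ)) = fun _ => u x := funext hconst
    rw [this]
    exact hasDerivAt_const 0 (u x)
  have h3 := h1.unique h2
  rw [map_add, map_smul, map_smul, smul_eq_mul, smul_eq_mul] at h3
  unfold pder
  linarith

private lemma Geo_coord (k l : Fin (m + 1)) (x : Fin (m + 1) → ℝ) :
    pder k (fun x : Fin (m + 1) → ℝ => x l) x = if k = l then 1 else 0 := by
  unfold pder
  have h : (fun x : Fin (m + 1) → ℝ => x l) =
      ⇑(ContinuousLinearMap.proj (R := ℝ) (φ := fun _ : Fin (m + 1) => ℝ) l) := rfl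
  rw [h, ContinuousLinearMap.fderiv]
  simp only [ContinuousLinearMap.proj_apply, Pi.single_apply]
  by_cases hkl : k = l
  · simp [hkl]
  · simp [hkl, Ne.symm hkl]

private lemma Geo_drot (hu : Sol u) (i j : Fin m) (k : Fin (m + 1)) (x : Fin (m + 1) → ℝ) :
    (if k = j.castSucc then 1 else 0) * pder i.castSucc u x +
        x j.castSucc * pder k (pder i.castSucc u) x =
      (if k = i.castSucc then 1 else 0) * pder j.castSucc u x +
        x i.castSucc * pder k (pder j.castSucc u) x := by
  have h : (fun x : Fin (m + 1) → ℝ => x j.castSucc * pder i.castSucc u x) =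
      fun x => x i.castSucc * pder j.castSucc u x := funext fun x => rot hu i j x
  have hc : ∀ l : Fin (m + 1), ContDiff ℝ ∞ (fun x : Fin (m + 1) → ℝ => x l) :=
    fun l => contDiff_apply ℝ ℝ l
  have h2 := congrFun (congrArg (pder k) h) x
  rw [pder_mul (hc _) (contDiff_pder hu.smooth _), pder_mul (hc _) (contDiff_pder hu.smooth _)] at h2
  simp only [Geo_coord] at h2
  linarith

/-- the algebra of one column -/
private lemma Geo_cs (p h : Fin m → ℝ) {ε g : ℝ} (hε : 0 < ε) (hg : g = ∑ i, p i ^ 2) :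
    0 ≤ ∑ i, h i ^ 2 - (∑ i, p i * h i) ^ 2 / (g + ε) := by
  have h1 : (∑ i, p i * h i) ^ 2 ≤ (∑ i, p i ^ 2) * ∑ i, h i ^ 2 :=
    Finset.sum_mul_sq_le_sq_mul_sq _ _ _
  have hg0 : 0 ≤ g := by rw [hg]; exact Finset.sum_nonneg fun i _ => sq_nonneg _
  have hh0 : 0 ≤ ∑ i, h i ^ 2 := Finset.sum_nonneg fun i _ => sq_nonneg _
  rw [sub_nonneg, div_le_iff₀ (by linarith)]
  rw [← hg] at h1
  nlinarith

/-- one column, lower bound -/
private lemma Geo_col (y p h v : Fin m → ℝ) {ε r c S : ℝ} (hε : 0 < ε) (hr : 0 < r)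
    (hy : r = ∑ i, y i ^ 2) (hp : ∀ i, p i = c * y i) (hS : S = ∑ i, y i * h i)
    (hv : ∀ i, h i - y i * S / r = v i) :
    ∑ i, v i ^ 2 ≤ ∑ i, h i ^ 2 - (∑ i, p i * h i) ^ 2 / (c ^ 2 * r + ε) := by
  have h1 : ∑ i, v i ^ 2 = ∑ i, h i ^ 2 - S ^ 2 / r := by
    have e : ∀ i, v i ^ 2 = h i ^ 2 - 2 * S / r * (y i * h i) + S ^ 2 / r ^ 2 * y i ^ 2 := by
      intro i
      rw [← hv i]
      field_simp
      ring
    simp_rw [e]
    rw [Finset.sum_add_distrib, Finset.sum_sub_distrib, ← Finset.mul_sum, ← Finset.mul_sum, ← hS,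
      ← hy]
    field_simp
    ring
  have h2 : ∑ i, p i * h i = c * S := by
    rw [hS, Finset.mul_sum]
    refine Finset.sum_congr rfl fun i _ => ?_
    rw [hp]
    ring
  rw [h1, h2]
  have hpos : 0 < c ^ 2 * r + ε := by positivity
  have h3 : (c * S) ^ 2 / (c ^ 2 * r + ε) ≤ S ^ 2 / r := by
    rw [div_le_div_iff₀ hpos hr]
    nlinarith [mul_nonneg (sq_nonneg S) hε.le]
  linarith

theorem geo (hm : 1 ≤ m) (hu : Sol u) {ε : ℝ} (hε : 0 < ε) (x : Fin (m + 1) → ℝ) :
    ((m : ℝ) - 1) * (gp u x / (1 + rho x)) ≤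
      ∑ i : Fin m, dd (pder i.castSucc u) (pder i.castSucc u) x -
        (∑ k, (∑ i : Fin m, pder i.castSucc u x * pder k (pder i.castSucc u) x) ^ 2) /
          (gp u x + ε) := by
  set p : Fin m → ℝ := fun i => pder i.castSucc u x with hpdef
  set H : Fin (m + 1) → Fin m → ℝ := fun k i => pder k (pder i.castSucc u) x with hHdef
  set y : Fin m → ℝ := fun i => x i.castSucc with hydef
  have hrot : ∀ i j, y j * p i = y i * p j := fun i j => rot hu i j x
  have hdrot : ∀ i j k, (if k = j.castSucc then 1 else 0) * p i + y j * H k i =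
      (if k = i.castSucc then 1 else 0) * p j + y i * H k j := fun i j k => Geo_drot hu i j k x
  have hgp : gp u x = ∑ i, p i ^ 2 := rfl
  have hrho : rho x = ∑ i, y i ^ 2 := rfl
  have hR : ∑ i : Fin m, dd (pder i.castSucc u) (pder i.castSucc u) x -
        (∑ k, (∑ i : Fin m, pder i.castSucc u x * pder k (pder i.castSucc u) x) ^ 2) /
          (gp u x + ε) = ∑ k, (∑ i, H k i ^ 2 - (∑ i, p i * H k i) ^ 2 / (gp u x + ε)) := by
    rw [Finset.sum_sub_distrib, Finset.sum_div]
    congr 1
    unfold dd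
    rw [Finset.sum_comm]
    refine Finset.sum_congr rfl fun k _ => Finset.sum_congr rfl fun i _ => ?_
    simp only [hHdef]
    ring
  rw [hR]
  have hm' : (1 : ℝ) ≤ m := by exact_mod_cast hm
  have hcs : ∀ k, 0 ≤ ∑ i, H k i ^ 2 - (∑ i, p i * H k i) ^ 2 / (gp u x + ε) :=
    fun k => Geo_cs p (H k) hε hgp
  have hr0 : 0 ≤ rho x := by rw [hrho]; exact Finset.sum_nonneg fun i _ => sq_nonneg _
  rcases hr0.eq_or_lt with hr | hr
  · -- `ρ = 0`
    have hy : ∀ i, y i = 0 := by
      intro i
      have h := (Finset.sum_eq_zero_iff_of_nonneg (fun i _ => sq_nonneg (y i))).mp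
        (hrho.symm.trans hr.symm) i (Finset.mem_univ i)
      exact pow_eq_zero_iff (two_ne_zero) |>.mp h
    have hzero : ((m : ℝ) - 1) * (gp u x / (1 + rho x)) = 0 := by
      by_cases h1 : m = 1
      · have h1' : (m : ℝ) = 1 := by exact_mod_cast h1
        rw [h1', sub_self, zero_mul]
      · have hp0 : ∀ i, p i = 0 := by
          intro i
          obtain ⟨j, hj⟩ : ∃ j : Fin m, j ≠ i := by
            have : Nontrivial (Fin m) := Fin.nontrivial_iff_two_le.mpr (by omega)
            exact exists_ne i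
          have h := hdrot i j j.castSucc
          rw [hy i, hy j, if_pos rfl, if_neg (by rw [Fin.castSucc_inj]; exact hj)] at h
          linarith
        rw [hgp]
        simp [hp0]
    rw [hzero]
    exact Finset.sum_nonneg fun k _ => hcs k
  · -- `ρ > 0`
    set r := rho x with hrdef
    set c : ℝ := (∑ j, y j * p j) / r with hc
    have hpc : ∀ i, p i = c * y i := by
      intro i
      have h1 : r * p i = y i * ∑ j, y j * p j := by
        rw [hrho, Finset.sum_mul, Finset.mul_sum]
        refine Finset.sum_congr rfl fun j _ => ?_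
        have := hrot i j
        linear_combination y j * this
      rw [hc]
      field_simp
      linarith
    have hgpc : gp u x = c ^ 2 * r := by
      rw [hgp, hrho, Finset.mul_sum]
      refine Finset.sum_congr rfl fun i _ => ?_
      rw [hpc]
      ring
    have hyp : ∑ j, y j * p j = c * r := by
      rw [hc]
      field_simp
    -- columns
    have hcol : ∀ l : Fin m, ∀ i, H l.castSucc i - y i * (∑ j, y j * H l.castSucc j) / r =
        c * ((if l = i then 1 else 0) - y l * y i / r) := by
      intro l i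
      have h1 : y l * p i + r * H l.castSucc i = (if l = i then 1 else 0) * (c * r) +
          y i * ∑ j, y j * H l.castSucc j := by
        have e : ∀ j, y j * ((if l.castSucc = j.castSucc then 1 else 0) * p i +
            y j * H l.castSucc i) = y j * ((if l.castSucc = i.castSucc then 1 else 0) * p j +
            y i * H l.castSucc j) := fun j => by rw [hdrot i j l.castSucc]
        have e2 : ∑ j, y j * ((if l.castSucc = j.castSucc then 1 else 0) * p i +
            y j * H l.castSucc i) = y l * p i + r * H l.castSucc i := by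
          simp_rw [mul_add]
          rw [Finset.sum_add_distrib, hrho, Finset.sum_mul]
          congr 1
          · simp [Fin.castSucc_inj]
          · refine Finset.sum_congr rfl fun j _ => ?_
            ring
        have e3 : ∑ j, y j * ((if l.castSucc = i.castSucc then 1 else 0) * p j +
            y i * H l.castSucc j) = (if l = i then 1 else 0) * (c * r) +
            y i * ∑ j, y j * H l.castSucc j := by
          rw [← hyp, Finset.mul_sum, Finset.mul_sum, ← Finset.sum_add_distrib]
          refine Finset.sum_congr rfl fun j _ => ?_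
          simp only [Fin.castSucc_inj]
          ring
        rw [← e2, ← e3]
        exact Finset.sum_congr rfl fun j _ => e j
      rw [hpc] at h1
      field_simp
      linear_combination h1
    have hbig : ∀ l : Fin m, c ^ 2 * (1 - y l ^ 2 / r) ≤
        ∑ i, H l.castSucc i ^ 2 - (∑ i, p i * H l.castSucc i) ^ 2 / (gp u x + ε) := by
      intro l
      have h := Geo_col y p (H l.castSucc) (fun i => c * ((if l = i then 1 else 0) - y l * y i / r))
        hε hr hrho hpc rfl (hcol l)
      rw [hgpc]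
      refine le_trans (le_of_eq ?_) h
      have e : ∀ i, (c * ((if l = i then 1 else 0) - y l * y i / r)) ^ 2 =
          (if l = i then c ^ 2 * (1 - 2 * y l ^ 2 / r) else 0) +
            c ^ 2 * y l ^ 2 / r ^ 2 * y i ^ 2 := by
        intro i
        by_cases hli : l = i
        · subst hli
          simp
          field_simp
          ring
        · simp [hli]
          field_simp
      simp_rw [e]
      rw [Finset.sum_add_distrib, ← Finset.mul_sum, ← hrho]
      simp
      field_simp
      ring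
    rw [Fin.sum_univ_castSucc]
    have h1 : ((m : ℝ) - 1) * c ^ 2 ≤ ∑ l : Fin m, (∑ i, H l.castSucc i ^ 2 -
        (∑ i, p i * H l.castSucc i) ^ 2 / (gp u x + ε)) := by
      refine le_trans (le_of_eq ?_) (Finset.sum_le_sum fun l _ => hbig l)
      rw [← Finset.mul_sum, Finset.sum_sub_distrib, ← Finset.sum_div, ← hrho, div_self hr.ne']
      simp
      ring
    have h2 : ((m : ℝ) - 1) * (gp u x / (1 + r)) ≤ ((m : ℝ) - 1) * c ^ 2 := by
      refine mul_le_mul_of_nonneg_left ?_ (by linarith)
      rw [hgpc, div_le_iff₀ (by linarith)]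
      nlinarith [sq_nonneg c]
    have h3 := hcs (Fin.last m)
    linarith

end Vale.Agent.P134
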