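import Vale.Agent.Lib.P134A.Stab
import Vale.Agent.Lib.P134A.Geo

/-!
# P134A Key: the weighted inequality

`stab` with `η = √(|∇'u|² + ε) ζ`:
`|∇η|² = (|∇'u|² + ε) |∇ζ|² + 2 ζ ∑ uᵢ ∇ζ·∇uᵢ + ζ² |∑ uᵢ ∇uᵢ|²/(|∇'u|² + ε)`; subtract the sum over `i` of `lin_int`, use `geo`:
`(m-1) ∫ ζ² |∇'u|²/(1+ρ²) ≤ ∫ |∇'u|² |∇ζ|² + ε ∫ (|∇ζ|² + (3u²-1) ζ²)`; let `ε → 0`.
-/

namespace Vale.Agent.P134

open Set MeasureTheory Filter Vale.Agent.P222
open scoped Topology ContDiff

variable {m : ℕ} {u : (Fin (m + 1) → ℝ) → ℝ}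

private theorem Key_sum {n : ℕ} {ι : Type*} (s : Finset ι) (f : ι → (Fin n → ℝ) → ℝ)
    (hf : ∀ i, ContDiff ℝ ∞ (f i)) (k : Fin n) (x : Fin n → ℝ) :
    pder k (fun y => ∑ i ∈ s, f i y) x = ∑ i ∈ s, pder k (f i) x := by
  unfold pder
  rw [fderiv_fun_sum fun i _ => smooth_differentiable (hf i) x]
  simp

private theorem Key_gp_smooth (hu : ContDiff ℝ ∞ u) : ContDiff ℝ ∞ (gp u) := by
  unfold gp
  exact ContDiff.sum fun i _ => (contDiff_pder hu _).pow 2

/-- `∑ uᵢ ∂ₖ uᵢ` -/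
private noncomputable def Key_S (u : (Fin (m + 1) → ℝ) → ℝ) (k : Fin (m + 1))
    (x : Fin (m + 1) → ℝ) : ℝ :=
  ∑ i : Fin m, pder i.castSucc u x * pder k (pder i.castSucc u) x

private theorem Key_S_smooth (hu : ContDiff ℝ ∞ u) (k : Fin (m + 1)) :
    ContDiff ℝ ∞ (Key_S u k) := by
  unfold Key_S
  exact ContDiff.sum fun i _ => (contDiff_pder hu _).mul (contDiff_pder (contDiff_pder hu _) _)

private theorem Key_pder_gp (hu : ContDiff ℝ ∞ u) (k : Fin (m + 1)) (ε : ℝ)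
    (x : Fin (m + 1) → ℝ) : pder k (fun y => gp u y + ε) x = 2 * Key_S u k x := by
  have e1 : pder k (fun y => gp u y + ε) x = pder k (gp u) x := by
    unfold pder
    rw [fderiv_add_const]
  have e2 : gp u = fun y => ∑ i : Fin m, pder i.castSucc u y * pder i.castSucc u y := by
    funext y
    unfold gp
    exact Finset.sum_congr rfl fun i _ => by ring
  rw [e1, e2, Key_sum _ _ (fun i => (contDiff_pder hu _).mul (contDiff_pder hu _))]
  unfold Key_S
  rw [Finset.mul_sum]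
  refine Finset.sum_congr rfl fun i _ => ?_
  rw [pder_mul (contDiff_pder hu _) (contDiff_pder hu _)]
  ring

private theorem Key_gp_nonneg (x : Fin (m + 1) → ℝ) : 0 ≤ gp u x := by
  unfold gp
  exact Finset.sum_nonneg fun i _ => sq_nonneg _

private theorem Key_w_smooth (hu : ContDiff ℝ ∞ u) {ε : ℝ} (hε : 0 < ε) :
    ContDiff ℝ ∞ (fun y => √(gp u y + ε)) :=
  ((Key_gp_smooth hu).add contDiff_const).sqrt fun x =>
    (add_pos_of_nonneg_of_pos (Key_gp_nonneg x) hε).ne'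

private theorem Key_pder_w (hu : ContDiff ℝ ∞ u) {ε : ℝ} (hε : 0 < ε) (k : Fin (m + 1))
    (x : Fin (m + 1) → ℝ) :
    pder k (fun y => √(gp u y + ε)) x = Key_S u k x / √(gp u x + ε) := by
  have hw := Key_w_smooth hu hε
  have hq : 0 < gp u x + ε := add_pos_of_nonneg_of_pos (Key_gp_nonneg x) hε
  have hwx : 0 < √(gp u x + ε) := Real.sqrt_pos.2 hq
  have e1 : (fun y => √(gp u y + ε) * √(gp u y + ε)) = fun y => gp u y + ε := by
    funext y
    exact Real.mul_self_sqrt (add_pos_of_nonneg_of_pos (Key_gp_nonneg y) hε).le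
  have e2 := congrFun (pder_mul hw hw k) x
  rw [e1, Key_pder_gp hu k ε x] at e2
  rw [eq_div_iff hwx.ne']
  linarith

private theorem Key_dd (hu : ContDiff ℝ ∞ u) {ζ : (Fin (m + 1) → ℝ) → ℝ} (hζ : ContDiff ℝ ∞ ζ)
    {ε : ℝ} (hε : 0 < ε) (x : Fin (m + 1) → ℝ) :
    dd (fun y => √(gp u y + ε) * ζ y) (fun y => √(gp u y + ε) * ζ y) x =
      ζ x ^ 2 * ((∑ k, Key_S u k x ^ 2) / (gp u x + ε)) +
        2 * (ζ x * ∑ k, pder k ζ x * Key_S u k x) + (gp u x + ε) * dd ζ ζ x := by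
  have hw := Key_w_smooth hu hε
  have hq : 0 < gp u x + ε := add_pos_of_nonneg_of_pos (Key_gp_nonneg x) hε
  have hwx : 0 < √(gp u x + ε) := Real.sqrt_pos.2 hq
  have hsq : √(gp u x + ε) ^ 2 = gp u x + ε := Real.sq_sqrt hq.le
  unfold dd
  rw [Finset.sum_div, Finset.mul_sum, Finset.mul_sum, Finset.mul_sum, Finset.mul_sum,
    ← Finset.sum_add_distrib, ← Finset.sum_add_distrib]
  refine Finset.sum_congr rfl fun k _ => ?_
  rw [pder_mul hw hζ]
  simp only
  rw [Key_pder_w hu hε k x]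
  generalize √(gp u x + ε) = w at *
  rw [← hsq]
  field_simp
  ring

private theorem Key_int {ζ : (Fin (m + 1) → ℝ) → ℝ} (hζ : Tst ζ) {f : (Fin (m + 1) → ℝ) → ℝ}
    (hf : Continuous f) (h0 : ∀ x, ζ x = 0 → (∀ k, pder k ζ x = 0) → f x = 0) :
    Integrable f := by
  refine hf.integrable_of_hasCompactSupport (HasCompactSupport.intro hζ.c.isCompact ?_)
  intro x hx
  refine h0 x (image_eq_zero_of_notMem_tsupport hx) fun k => ?_
  have h1 : x ∉ tsupport (fderiv ℝ ζ) := fun h => hx (tsupport_fderiv_subset ℝ h)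
  unfold pder
  rw [image_eq_zero_of_notMem_tsupport h1]
  rfl

private theorem Key_cont {f : (Fin (m + 1) → ℝ) → ℝ} (hf : ContDiff ℝ ∞ f) (k : Fin (m + 1)) :
    Continuous (pder k f) := (contDiff_pder hf k).continuous

private theorem Key_dd_cont {f g : (Fin (m + 1) → ℝ) → ℝ} (hf : ContDiff ℝ ∞ f)
    (hg : ContDiff ℝ ∞ g) : Continuous (dd f g) := by
  unfold dd
  exact continuous_finsetSum _ fun k _ => (Key_cont hf k).mul (Key_cont hg k)

theorem key_eps (hm : 1 ≤ m) (hu : Sol u) {ζ : (Fin (m + 1) → ℝ) → ℝ} (hζ : Tst ζ) {ε : ℝ}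
    (hε : 0 < ε) :
    ((m : ℝ) - 1) * ∫ x, ζ x ^ 2 * (gp u x / (1 + rho x)) ≤
      (∫ x, gp u x * dd ζ ζ x) + ε * ∫ x, (dd ζ ζ x + (3 * u x ^ 2 - 1) * ζ x ^ 2) := by
  have hus := hu.smooth
  have hζs := hζ.s
  have hw := Key_w_smooth hus hε
  have cu : Continuous u := hus.continuous
  have cζ : Continuous ζ := hζs.continuous
  have cg : Continuous (gp u) := (Key_gp_smooth hus).continuous
  have cS : ∀ k, Continuous (Key_S u k) := fun k => (Key_S_smooth hus k).continuous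
  have cz : ∀ k, Continuous (pder k ζ) := Key_cont hζs
  have cdz : Continuous (dd ζ ζ) := Key_dd_cont hζs hζs
  have hq : ∀ x, gp u x + ε ≠ 0 := fun x => (add_pos_of_nonneg_of_pos (Key_gp_nonneg x) hε).ne'
  have hrho : ∀ x : Fin (m + 1) → ℝ, 0 < 1 + rho x := fun x => by
    have : 0 ≤ rho x := by
      unfold rho
      exact Finset.sum_nonneg fun i _ => sq_nonneg _
    linarith
  have crho : Continuous (rho : (Fin (m + 1) → ℝ) → ℝ) := by
    unfold rho
    fun_prop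
  -- the pieces
  have iA : Integrable fun x => ζ x ^ 2 * ((∑ k, Key_S u k x ^ 2) / (gp u x + ε)) := by
    refine Key_int hζ ((cζ.pow 2).mul (Continuous.div (continuous_finsetSum _ fun k _ =>
      (cS k).pow 2) (cg.add continuous_const) hq)) fun x h1 _ => ?_
    rw [h1]
    ring
  have iB : Integrable fun x => 2 * (ζ x * ∑ k, pder k ζ x * Key_S u k x) := by
    refine Key_int hζ (continuous_const.mul (cζ.mul (continuous_finsetSum _ fun k _ =>
      (cz k).mul (cS k)))) fun x h1 _ => ?_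
    rw [h1]
    ring
  have iC : Integrable fun x => gp u x * dd ζ ζ x := by
    refine Key_int hζ (cg.mul cdz) fun x _ h2 => ?_
    unfold dd
    simp [h2]
  have iD : Integrable fun x => dd ζ ζ x + (3 * u x ^ 2 - 1) * ζ x ^ 2 := by
    refine Key_int hζ (cdz.add (((continuous_const.mul (cu.pow 2)).sub continuous_const).mul
      (cζ.pow 2))) fun x h1 h2 => ?_
    unfold dd
    simp [h1, h2]
  have iE : Integrable fun x => (3 * u x ^ 2 - 1) * gp u x * ζ x ^ 2 := by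
    refine Key_int hζ ((((continuous_const.mul (cu.pow 2)).sub continuous_const).mul cg).mul
      (cζ.pow 2)) fun x h1 h2 => ?_
    rw [h1]
    ring
  have iG : Integrable fun x =>
      ζ x ^ 2 * ∑ i : Fin m, dd (pder i.castSucc u) (pder i.castSucc u) x := by
    refine Key_int hζ ((cζ.pow 2).mul (continuous_finsetSum _ fun i _ =>
      Key_dd_cont (contDiff_pder hus _) (contDiff_pder hus _))) fun x h1 _ => ?_
    rw [h1]
    ring
  have iH : Integrable fun x => ζ x ^ 2 * (gp u x / (1 + rho x)) := by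
    refine Key_int hζ ((cζ.pow 2).mul (Continuous.div cg (continuous_const.add crho)
      fun x => (hrho x).ne')) fun x h1 _ => ?_
    rw [h1]
    ring
  -- stability
  have hη : Tst (fun y => √(gp u y + ε) * ζ y) := ⟨hw.mul hζs, hζ.c.mul_left⟩
  have h1 := stab hu hη
  have h1' : ∫ x, (dd (fun y => √(gp u y + ε) * ζ y) (fun y => √(gp u y + ε) * ζ y) x +
      (3 * u x ^ 2 - 1) * (√(gp u x + ε) * ζ x) ^ 2) =
      (∫ x, ζ x ^ 2 * ((∑ k, Key_S u k x ^ 2) / (gp u x + ε))) +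
      (∫ x, 2 * (ζ x * ∑ k, pder k ζ x * Key_S u k x)) + (∫ x, gp u x * dd ζ ζ x) +
      ε * (∫ x, (dd ζ ζ x + (3 * u x ^ 2 - 1) * ζ x ^ 2)) +
      ∫ x, (3 * u x ^ 2 - 1) * gp u x * ζ x ^ 2 := by
    have iD' : Integrable fun x => ε * (dd ζ ζ x + (3 * u x ^ 2 - 1) * ζ x ^ 2) := iD.const_mul ε
    have iAB : Integrable fun x => ζ x ^ 2 * ((∑ k, Key_S u k x ^ 2) / (gp u x + ε)) +
      2 * (ζ x * ∑ k, pder k ζ x * Key_S u k x) := iA.add iB
    have iABC : Integrable fun x => ζ x ^ 2 * ((∑ k, Key_S u k x ^ 2) / (gp u x + ε)) +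
      2 * (ζ x * ∑ k, pder k ζ x * Key_S u k x) + gp u x * dd ζ ζ x := iAB.add iC
    have iABCD : Integrable fun x => ζ x ^ 2 * ((∑ k, Key_S u k x ^ 2) / (gp u x + ε)) +
      2 * (ζ x * ∑ k, pder k ζ x * Key_S u k x) + gp u x * dd ζ ζ x +
      ε * (dd ζ ζ x + (3 * u x ^ 2 - 1) * ζ x ^ 2) := iABC.add iD'
    rw [← integral_const_mul, ← integral_add iA iB, ← integral_add iAB iC,
      ← integral_add iABC iD', ← integral_add iABCD iE]
    refine integral_congr_ae (Eventually.of_forall fun x => ?_)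
    beta_reduce
    rw [Key_dd hus hζs hε x, mul_pow, Real.sq_sqrt
      (add_pos_of_nonneg_of_pos (Key_gp_nonneg x) hε).le]
    ring
  simp only [h1'] at h1
  -- the linearized equations
  have iL : ∀ i : Fin m, Integrable fun x =>
      (ζ x ^ 2 * dd (pder i.castSucc u) (pder i.castSucc u) x +
        2 * (ζ x * pder i.castSucc u x * dd ζ (pder i.castSucc u) x) +
      (3 * u x ^ 2 - 1) * pder i.castSucc u x ^ 2 * ζ x ^ 2) := by
    intro i
    have c1 := Key_cont hus i.castSucc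
    have s1 := contDiff_pder hus i.castSucc
    refine Key_int hζ ((((cζ.pow 2).mul (Key_dd_cont s1 s1)).add (continuous_const.mul
      ((cζ.mul c1).mul (Key_dd_cont hζs s1)))).add
      ((((continuous_const.mul (cu.pow 2)).sub continuous_const).mul (c1.pow 2)).mul
      (cζ.pow 2))) fun x h1 _ => ?_
    rw [h1]
    ring
  have h2 : (∫ x, ζ x ^ 2 * ∑ i : Fin m, dd (pder i.castSucc u) (pder i.castSucc u) x) +
      (∫ x, 2 * (ζ x * ∑ k, pder k ζ x * Key_S u k x)) +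
      ∫ x, (3 * u x ^ 2 - 1) * gp u x * ζ x ^ 2 = 0 := by
    have iGB : Integrable fun x =>
      ζ x ^ 2 * ∑ i : Fin m, dd (pder i.castSucc u) (pder i.castSucc u) x +
      2 * (ζ x * ∑ k, pder k ζ x * Key_S u k x) := iG.add iB
    rw [← integral_add iG iB, ← integral_add iGB iE]
    have h3 : ∑ i : Fin m, ∫ x, (ζ x ^ 2 * dd (pder i.castSucc u) (pder i.castSucc u) x +
        2 * (ζ x * pder i.castSucc u x * dd ζ (pder i.castSucc u) x) +
      (3 * u x ^ 2 - 1) * pder i.castSucc u x ^ 2 * ζ x ^ 2) = 0 :=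
      Finset.sum_eq_zero fun i _ => lin_int hu i.castSucc hζ
    rw [← integral_finsetSum _ fun i _ => iL i] at h3
    rw [← h3]
    refine integral_congr_ae (Eventually.of_forall fun x => ?_)
    have e1 : ∑ k, pder k ζ x * Key_S u k x =
        ∑ i : Fin m, pder i.castSucc u x * dd ζ (pder i.castSucc u) x := by
      unfold Key_S dd
      simp only [Finset.mul_sum]
      rw [Finset.sum_comm]
      refine Finset.sum_congr rfl fun i _ => Finset.sum_congr rfl fun k _ => ?_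
      ring
    beta_reduce
    rw [e1]
    unfold gp
    rw [Finset.sum_add_distrib, Finset.sum_add_distrib]
    simp only [Finset.mul_sum, Finset.sum_mul]
    congr 1
    congr 1
    refine Finset.sum_congr rfl fun i _ => ?_
    ring
  -- the pointwise inequality
  have h4 : ((m : ℝ) - 1) * ∫ x, ζ x ^ 2 * (gp u x / (1 + rho x)) ≤
      (∫ x, ζ x ^ 2 * ∑ i : Fin m, dd (pder i.castSucc u) (pder i.castSucc u) x) -
      ∫ x, ζ x ^ 2 * ((∑ k, Key_S u k x ^ 2) / (gp u x + ε)) := by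
    rw [← integral_const_mul, ← integral_sub iG iA]
    refine integral_mono (iH.const_mul _) (iG.sub iA) fun x => ?_
    have h5 := mul_le_mul_of_nonneg_left (geo hm hu hε x) (sq_nonneg (ζ x))
    unfold Key_S
    calc ((m : ℝ) - 1) * (ζ x ^ 2 * (gp u x / (1 + rho x)))
        = ζ x ^ 2 * (((m : ℝ) - 1) * (gp u x / (1 + rho x))) := by ring
      _ ≤ _ := h5
      _ = _ := by ring
  linarith

theorem key (hm : 1 ≤ m) (hu : Sol u) {ζ : (Fin (m + 1) → ℝ) → ℝ} (hζ : Tst ζ) :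
    ((m : ℝ) - 1) * ∫ x, ζ x ^ 2 * (gp u x / (1 + rho x)) ≤ ∫ x, gp u x * dd ζ ζ x := by
  have h1 : Tendsto (fun ε : ℝ => (∫ x, gp u x * dd ζ ζ x) +
      ε * ∫ x, (dd ζ ζ x + (3 * u x ^ 2 - 1) * ζ x ^ 2)) (𝓝[>] 0)
      (𝓝 ((∫ x, gp u x * dd ζ ζ x) +
      0 * ∫ x, (dd ζ ζ x + (3 * u x ^ 2 - 1) * ζ x ^ 2))) := by
    refine Tendsto.mono_left ?_ nhdsWithin_le_nhds
    exact tendsto_const_nhds.add (tendsto_id.mul_const _)
  rw [zero_mul, add_zero] at h1
  refine ge_of_tendsto h1 ?_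
  filter_upwards [self_mem_nhdsWithin] with ε hε
  exact key_eps hm hu hζ hε

end Vale.Agent.P134
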