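import Vale.Agent.Lib.P134A.Defs
import Vale.Agent.Lib.P225R.IdII

/-!
# P134A Stab: stability inequality and linearized equations

`lin`: `v = ∂ᵢ u` satisfies `Δ v = (3u² - 1) v` (`pder_comm`). `stab`: with `v = ∂ₙ u > 0`, `F = ∇v η²/v` is compactly supported,
`div F = (3u²-1) η² + 2 (η/v) ∇v·∇η - |∇v|² η²/v²`, so `∫ (3u²-1) η² = ∫ |∇v|² η²/v² - 2 (η/v) ∇v·∇η ≥ -∫ |∇η|²`
(`int_div` of Lib/P225R/IdII.lean, also `IdII_mul` there). `lin_int`: the divergence of `v ζ² ∇v`.
-/

namespace Vale.Agent.P134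

open Set MeasureTheory Filter Vale.Agent.P222
open scoped Topology ContDiff

variable {m : ℕ} {u : (Fin (m + 1) → ℝ) → ℝ}

private theorem Stab_divI {N : ℕ} {F : Fin N → (Fin N → ℝ) → ℝ} (hF : ∀ j, ContDiff ℝ ∞ (F j))
    (hc : ∀ j, HasCompactSupport (F j)) :
    Integrable (fun x => ∑ j, pder j (F j) x) ∧ ∫ x, ∑ j, pder j (F j) x = 0 := by
  have hi : ∀ j, Integrable fun x => pder j (F j) x := fun j =>
    (contDiff_pder (hF j) j).continuous.integrable_of_hasCompactSupport ((hc j).fderiv_apply ℝ _)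
  refine ⟨integrable_finsetSum _ fun j _ => hi j, ?_⟩
  rw [integral_finsetSum _ fun j _ => hi j]
  exact Finset.sum_eq_zero fun j _ => Vale.Agent.P225.int_div (hF j) (hc j) j

private theorem Stab_sum {N : ℕ} {F : Fin N → (Fin N → ℝ) → ℝ} (hF : ∀ j, ContDiff ℝ ∞ (F j))
    (i : Fin N) (x : Fin N → ℝ) : pder i (fun x => ∑ j, F j x) x = ∑ j, pder i (F j) x := by
  unfold pder
  rw [fderiv_fun_sum fun j _ => (hF j).differentiable (by simp) x]
  simp

private theorem Stab_cubic {N : ℕ} {u : (Fin N → ℝ) → ℝ} (hu : ContDiff ℝ ∞ u)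
    (i : Fin N) (x : Fin N → ℝ) :
    pder i (fun x => u x ^ 3 - u x) x = (3 * u x ^ 2 - 1) * pder i u x := by
  have hd : HasFDerivAt u (fderiv ℝ u x) x := (hu.differentiable (by simp) x).hasFDerivAt
  have hg : HasDerivAt (fun t : ℝ => t ^ 3 - t) (3 * u x ^ 2 - 1) (u x) := by
    have h := (hasDerivAt_pow 3 (u x)).sub (hasDerivAt_id (u x))
    refine HasDerivAt.congr_deriv (f := fun t : ℝ => t ^ 3 - t) h ?_
    norm_num
  have h := hg.comp_hasFDerivAt x hd
  have h5 : fderiv ℝ (fun x => u x ^ 3 - u x) x = (3 * u x ^ 2 - 1) • fderiv ℝ u x := h.fderiv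
  unfold pder
  rw [h5, _root_.smul_apply, smul_eq_mul]

theorem lin (hu : Sol u) (i : Fin (m + 1)) (x : Fin (m + 1) → ℝ) :
    ∑ j, pder j (pder j (pder i u)) x = (3 * u x ^ 2 - 1) * pder i u x := by
  have h1 : ∀ j, pder j (pder j (pder i u)) = pder i (pder j (pder j u)) := by
    intro j
    rw [pder_comm hu.smooth j i, pder_comm (contDiff_pder hu.smooth j) j i]
  simp only [h1]
  rw [← Stab_sum (fun j => contDiff_pder (contDiff_pder hu.smooth j) j) i x]
  have h2 : (fun x => ∑ j, pder j (pder j u) x) = fun x => u x ^ 3 - u x := funext hu.eq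
  rw [h2]
  exact Stab_cubic hu.smooth i x

private theorem Stab_mul {N : ℕ} {f g : (Fin N → ℝ) → ℝ} (hf : ContDiff ℝ ∞ f)
    (hg : ContDiff ℝ ∞ g) (i : Fin N) (x : Fin N → ℝ) :
    pder i (fun x => f x * g x) x = pder i f x * g x + f x * pder i g x :=
  Vale.Agent.P225.IdII_mul (hf.differentiable (by simp)) (hg.differentiable (by simp)) i x

private theorem Stab_inv {N : ℕ} {v : (Fin N → ℝ) → ℝ} (hv : ContDiff ℝ ∞ v) (h0 : ∀ x, v x ≠ 0)
    (i : Fin N) (x : Fin N → ℝ) :
    pder i (fun x => (v x)⁻¹) x = -(pder i v x * (v x)⁻¹ ^ 2) := by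
  have hi : ContDiff ℝ ∞ fun x => (v x)⁻¹ := hv.inv h0
  have h1 := Stab_mul hv hi i x
  have h2 : (fun x => v x * (v x)⁻¹) = fun _ => (1 : ℝ) := funext fun y => mul_inv_cancel₀ (h0 y)
  rw [h2] at h1
  have h3 : pder i (fun _ : Fin N → ℝ => (1 : ℝ)) x = 0 := by
    unfold pder
    simp
  rw [h3] at h1
  have h4 := h0 x
  field_simp
  field_simp at h1
  linarith

theorem stab (hu : Sol u) {η : (Fin (m + 1) → ℝ) → ℝ} (hη : Tst η) :
    0 ≤ ∫ x, (dd η η x + (3 * u x ^ 2 - 1) * η x ^ 2) := by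
  set v := pder (Fin.last m) u with hv
  have hvs : ContDiff ℝ ∞ v := contDiff_pder hu.smooth _
  have hv0 : ∀ x, v x ≠ 0 := fun x => (hu.mono x).ne'
  have his : ContDiff ℝ ∞ fun x => (v x)⁻¹ := hvs.inv hv0
  have hηη : ContDiff ℝ ∞ fun x => η x * η x := hη.s.mul hη.s
  have hA : ContDiff ℝ ∞ fun x => η x * η x * (v x)⁻¹ := hηη.mul his
  have hF : ∀ j, ContDiff ℝ ∞ fun x => η x * η x * (v x)⁻¹ * pder j v x := fun j =>
    hA.mul (contDiff_pder hvs j)
  have hc : ∀ j, HasCompactSupport fun x => η x * η x * (v x)⁻¹ * pder j v x := by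
    intro j
    have h1 : HasCompactSupport fun x => η x * (η x * (v x)⁻¹ * pder j v x) :=
      hη.c.mul_right
    have e : (fun x => η x * η x * (v x)⁻¹ * pder j v x) =
        fun x => η x * (η x * (v x)⁻¹ * pder j v x) := by
      funext x
      ring
    rw [e]
    exact h1
  obtain ⟨hI, h0⟩ := Stab_divI hF hc
  have hpt : ∀ x, ∑ j, pder j (fun x => η x * η x * (v x)⁻¹ * pder j v x) x =
      (3 * u x ^ 2 - 1) * η x ^ 2 + ∑ j, (2 * (η x * (v x)⁻¹) * (pder j η x * pder j v x) -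
        (η x * (v x)⁻¹) ^ 2 * pder j v x ^ 2) := by
    intro x
    have h1 : ∀ j, pder j (fun x => η x * η x * (v x)⁻¹ * pder j v x) x =
        (2 * (η x * (v x)⁻¹) * (pder j η x * pder j v x) -
          (η x * (v x)⁻¹) ^ 2 * pder j v x ^ 2) +
        η x ^ 2 * (v x)⁻¹ * pder j (pder j v) x := by
      intro j
      rw [Stab_mul hA (contDiff_pder hvs j), Stab_mul hηη his, Stab_mul hη.s hη.s,
        Stab_inv hvs hv0]
      ring
    simp only [h1]
    rw [Finset.sum_add_distrib, ← Finset.mul_sum, hv, lin hu, ← hv]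
    have h4 := hv0 x
    have h5 : η x ^ 2 * (v x)⁻¹ * ((3 * u x ^ 2 - 1) * v x) = (3 * u x ^ 2 - 1) * η x ^ 2 := by
      field_simp
    rw [h5]
    ring
  have hcp : ∀ j, HasCompactSupport (pder j η) := fun j => hη.c.fderiv_apply ℝ _
  have hi1 : Integrable fun x => dd η η x := by
    unfold dd
    refine integrable_finsetSum _ fun j _ => ?_
    exact ((contDiff_pder hη.s j).continuous.mul
      (contDiff_pder hη.s j).continuous).integrable_of_hasCompactSupport ((hcp j).mul_right)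
  have hi2 : Integrable fun x => (3 * u x ^ 2 - 1) * η x ^ 2 := by
    have hcc : HasCompactSupport fun x => η x * ((3 * u x ^ 2 - 1) * η x) := hη.c.mul_right
    have hct : Continuous fun x => η x * ((3 * u x ^ 2 - 1) * η x) :=
      hη.s.continuous.mul (((continuous_const.mul (hu.smooth.continuous.pow 2)).sub
        continuous_const).mul hη.s.continuous)
    refine (hct.integrable_of_hasCompactSupport hcc).congr
      (Filter.Eventually.of_forall fun x => ?_)
    dsimp only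
    ring
  have hi : Integrable fun x => dd η η x + (3 * u x ^ 2 - 1) * η x ^ 2 := hi1.add hi2
  have hsub := integral_sub hi hI
  rw [h0, sub_zero] at hsub
  rw [← hsub]
  refine integral_nonneg fun x => ?_
  simp only [Pi.zero_apply]
  rw [hpt]
  have e : dd η η x + (3 * u x ^ 2 - 1) * η x ^ 2 - ((3 * u x ^ 2 - 1) * η x ^ 2 +
      ∑ j, (2 * (η x * (v x)⁻¹) * (pder j η x * pder j v x) -
        (η x * (v x)⁻¹) ^ 2 * pder j v x ^ 2)) =
      ∑ j, (pder j η x - η x * (v x)⁻¹ * pder j v x) ^ 2 := by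
    unfold dd
    have e2 : ∀ j, (pder j η x - η x * (v x)⁻¹ * pder j v x) ^ 2 =
        pder j η x * pder j η x - (2 * (η x * (v x)⁻¹) * (pder j η x * pder j v x) -
        (η x * (v x)⁻¹) ^ 2 * pder j v x ^ 2) := fun j => by ring
    have e3 : ∑ j, (pder j η x - η x * (v x)⁻¹ * pder j v x) ^ 2 =
        ∑ j, pder j η x * pder j η x - ∑ j, (2 * (η x * (v x)⁻¹) * (pder j η x * pder j v x) -
        (η x * (v x)⁻¹) ^ 2 * pder j v x ^ 2) := by
      rw [← Finset.sum_sub_distrib]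
      exact Finset.sum_congr rfl fun j _ => e2 j
    rw [e3]
    ring
  rw [e]
  exact Finset.sum_nonneg fun j _ => sq_nonneg _

theorem lin_int (hu : Sol u) (i : Fin (m + 1)) {ζ : (Fin (m + 1) → ℝ) → ℝ} (hζ : Tst ζ) :
    ∫ x, (ζ x ^ 2 * dd (pder i u) (pder i u) x + 2 * (ζ x * pder i u x * dd ζ (pder i u) x) +
      (3 * u x ^ 2 - 1) * pder i u x ^ 2 * ζ x ^ 2) = 0 := by
  set v := pder i u with hv
  have hvs : ContDiff ℝ ∞ v := contDiff_pder hu.smooth _
  have hzz : ContDiff ℝ ∞ fun x => ζ x * ζ x := hζ.s.mul hζ.s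
  have hA : ContDiff ℝ ∞ fun x => ζ x * ζ x * v x := hzz.mul hvs
  have hF : ∀ j, ContDiff ℝ ∞ fun x => ζ x * ζ x * v x * pder j v x := fun j =>
    hA.mul (contDiff_pder hvs j)
  have hc : ∀ j, HasCompactSupport fun x => ζ x * ζ x * v x * pder j v x := by
    intro j
    have h1 : HasCompactSupport fun x => ζ x * (ζ x * v x * pder j v x) :=
      hζ.c.mul_right
    have e : (fun x => ζ x * ζ x * v x * pder j v x) =
        fun x => ζ x * (ζ x * v x * pder j v x) := by
      funext x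
      ring
    rw [e]
    exact h1
  obtain ⟨-, h0⟩ := Stab_divI hF hc
  rw [← h0]
  refine integral_congr_ae (Filter.Eventually.of_forall fun x => ?_)
  have h1 : ∀ j, pder j (fun x => ζ x * ζ x * v x * pder j v x) x =
      ζ x ^ 2 * (pder j v x * pder j v x) + 2 * (ζ x * v x) * (pder j ζ x * pder j v x) +
      ζ x ^ 2 * v x * pder j (pder j v) x := by
    intro j
    rw [Stab_mul hA (contDiff_pder hvs j), Stab_mul hzz hvs, Stab_mul hζ.s hζ.s]
    ring
  simp only [h1]
  rw [Finset.sum_add_distrib, Finset.sum_add_distrib, ← Finset.mul_sum, ← Finset.mul_sum,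
    ← Finset.mul_sum]
  have h2 : ∑ j, pder j (pder j v) x = (3 * u x ^ 2 - 1) * v x := lin hu i x
  rw [h2]
  unfold dd
  ring

end Vale.Agent.P134
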